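import Mathlib

/-! Packing unimodular simplices into a simplex, in order coordinates. -/

namespace Vale.Agent.P209

/-- The standard open simplex of size `t` in order coordinates. -/
def ordSimplex (n : ℕ) (t : ℝ) : Set (Fin n → ℝ) :=
  {y | StrictMono y ∧ ∀ i, 0 < y i ∧ y i < t}

/-- An affine placement: a permutation of coordinates followed by a translation. -/
abbrev Placement (n : ℕ) := Equiv.Perm (Fin n) × (Fin n → ℝ)

def Placement.app {n : ℕ} (c : Placement n) (y : Fin n → ℝ) : Fin n → ℝ :=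
  fun i => c.2 i + y (c.1 i)

/-- Simplices of sizes `b` placed disjointly inside `S`. -/
def PackInto {n : ℕ} {ι : Type*} (S : Set (Fin n → ℝ)) (b : ι → ℝ) : Prop :=
  ∃ c : ι → Placement n, (∀ i, Placement.app (c i) '' ordSimplex n (b i) ⊆ S) ∧
    ∀ i j, i ≠ j → Disjoint (Placement.app (c i) '' ordSimplex n (b i))
      (Placement.app (c j) '' ordSimplex n (b j))

variable {n : ℕ}

theorem Placement.app_injective (c : Placement n) : Function.Injective (Placement.app c) := by
  intro y y' h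
  funext i
  have := congrFun h (c.1.symm i)
  simpa [Placement.app] using this

def Placement.comp (c d : Placement n) : Placement n :=
  (c.1.trans d.1, fun i => c.2 i + d.2 (c.1 i))

theorem Placement.app_comp (c d : Placement n) :
    Placement.app (c.comp d) = Placement.app c ∘ Placement.app d := by
  funext y i
  simp [Placement.app, Placement.comp, add_assoc]

theorem ordSimplex_mono {s t : ℝ} (h : s ≤ t) : ordSimplex n s ⊆ ordSimplex n t :=
  fun _ hy => ⟨hy.1, fun i => ⟨(hy.2 i).1, (hy.2 i).2.trans_le h⟩⟩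

theorem PackInto.mono {ι : Type*} {S : Set (Fin n → ℝ)} {b b' : ι → ℝ} (h : PackInto S b)
    (hb : ∀ i, b' i ≤ b i) : PackInto S b' := by
  obtain ⟨c, h1, h2⟩ := h
  have hs : ∀ i, Placement.app (c i) '' ordSimplex n (b' i)
      ⊆ Placement.app (c i) '' ordSimplex n (b i) :=
    fun i => Set.image_mono (ordSimplex_mono (hb i))
  exact ⟨c, fun i => (hs i).trans (h1 i), fun i j hij =>
    Set.disjoint_of_subset (hs i) (hs j) (h2 i j hij)⟩

theorem PackInto.reindex {ι ι' : Type*} {S : Set (Fin n → ℝ)} {b : ι → ℝ} (h : PackInto S b)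
    (e : ι' ↪ ι) : PackInto S (b ∘ e) := by
  obtain ⟨c, h1, h2⟩ := h
  exact ⟨c ∘ e, fun i => h1 (e i), fun i j hij => h2 _ _ (fun h => hij (e.injective h))⟩

theorem PackInto.nested {ι : Type*} {τ : ι → Type*} {S : Set (Fin n → ℝ)} {b : ι → ℝ}
    (h : PackInto S b) {d : ∀ i, τ i → ℝ} (hd : ∀ i, PackInto (ordSimplex n (b i)) (d i)) :
    PackInto S (fun p : Σ i, τ i => d p.1 p.2) := by
  obtain ⟨c, h1, h2⟩ := h
  choose e e1 e2 using hd
  refine ⟨fun p => (c p.1).comp (e p.1 p.2), ?_, ?_⟩
  · rintro ⟨i, x⟩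
    rw [Placement.app_comp, Set.image_comp]
    exact (Set.image_mono (e1 i x)).trans (h1 i)
  · rintro ⟨i, x⟩ ⟨j, y⟩ hne
    simp only [Placement.app_comp, Set.image_comp]
    by_cases hij : i = j
    · subst hij
      have hxy : x ≠ y := fun h => hne (by rw [h])
      exact Set.disjoint_image_of_injective (Placement.app_injective _) (e2 i x y hxy)
    · exact Set.disjoint_of_subset (Set.image_mono (e1 i x)) (Set.image_mono (e1 j y))
        (h2 i j hij)

/-- Freudenthal's subdivision: the simplices indexed by `c : Fin n → Fin m`. -/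
noncomputable def freudenthal {m : ℕ} (h D : ℝ) (c : Fin n → Fin m) : Placement n :=
  (Tuple.sort fun i => (c i : ℕ) * n + i,
    fun i => D + h * ((c (Tuple.sort (fun i => (c i : ℕ) * n + i) i) : ℕ) : ℝ))

theorem freudenthal_mem {m : ℕ} {h D : ℝ} (hh : 0 < h) (hD : 0 ≤ D) (c : Fin n → Fin m)
    {y : Fin n → ℝ} (hy : y ∈ ordSimplex n h) :
    Placement.app (freudenthal h D c) y ∈ ordSimplex n (D + m * h) := by
  set σ := Tuple.sort fun i => (c i : ℕ) * n + i with hσ
  have hinj : Function.Injective fun i : Fin n => (c i : ℕ) * n + i := by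
    intro i j hij
    have h1 := congrArg (· % n) hij
    simp only [Nat.add_comm ((c _ : ℕ) * n), Nat.add_mul_mod_self_right,
      Nat.mod_eq_of_lt i.isLt, Nat.mod_eq_of_lt j.isLt] at h1
    exact Fin.ext h1
  have hmono : StrictMono ((fun i : Fin n => (c i : ℕ) * n + i) ∘ σ) :=
    (Tuple.monotone_sort _).strictMono_of_injective (hinj.comp σ.injective)
  constructor
  · intro i j hij
    have h1 := hmono hij
    simp only [Function.comp_apply] at h1
    show D + h * ((c (σ i) : ℕ) : ℝ) + y (σ i) < D + h * ((c (σ j) : ℕ) : ℝ) + y (σ j)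
    rcases lt_trichotomy (c (σ i) : ℕ) (c (σ j)) with hc | hc | hc
    · have : ((c (σ i) : ℕ) : ℝ) + 1 ≤ (c (σ j) : ℕ) := by exact_mod_cast hc
      nlinarith [hy.2 (σ i), hy.2 (σ j)]
    · rw [hc] at h1 ⊢
      have : σ i < σ j := by rw [Fin.lt_def]; omega
      linarith [hy.1 this]
    · exfalso
      have := Nat.mul_le_mul_right n (Nat.succ_le_of_lt hc)
      rw [Nat.succ_mul] at this
      have := (σ j).isLt
      omega
  · intro i
    show 0 < D + h * ((c (σ i) : ℕ) : ℝ) + y (σ i) ∧ D + h * ((c (σ i) : ℕ) : ℝ) + y (σ i) < _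
    have h1 : ((c (σ i) : ℕ) : ℝ) + 1 ≤ m := by exact_mod_cast (c (σ i)).isLt
    have h0 : (0 : ℝ) ≤ (c (σ i) : ℕ) := Nat.cast_nonneg _
    constructor <;> nlinarith [hy.2 (σ i)]

theorem freudenthal_disjoint {m : ℕ} {h D : ℝ} (hh : 0 < h) {c c' : Fin n → Fin m}
    {y y' : Fin n → ℝ} (hy : y ∈ ordSimplex n h) (hy' : y' ∈ ordSimplex n h)
    (he : Placement.app (freudenthal h D c) y = Placement.app (freudenthal h D c') y') :
    c = c' := by
  set σ := (freudenthal h D c).1
  set σ' := (freudenthal h D c').1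
  have key : ∀ i, (c (σ i) : ℕ) = c' (σ' i) ∧ y (σ i) = y' (σ' i) := by
    intro i
    have e : D + h * ((c (σ i) : ℕ) : ℝ) + y (σ i)
        = D + h * ((c' (σ' i) : ℕ) : ℝ) + y' (σ' i) := congrFun he i
    have b := hy.2 (σ i)
    have b' := hy'.2 (σ' i)
    have hc : (c (σ i) : ℕ) = c' (σ' i) := by
      rcases lt_trichotomy (c (σ i) : ℕ) (c' (σ' i)) with hc | hc | hc
      · have : ((c (σ i) : ℕ) : ℝ) + 1 ≤ (c' (σ' i) : ℕ) := by exact_mod_cast hc
        nlinarith
      · exact hc
      · have : ((c' (σ' i) : ℕ) : ℝ) + 1 ≤ (c (σ i) : ℕ) := by exact_mod_cast hc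
        nlinarith
    refine ⟨hc, ?_⟩
    rw [hc] at e
    linarith
  let p : Fin n → Fin n := fun j => σ' (σ.symm j)
  have hp : ∀ j, y j = y' (p j) := fun j => by simpa [p] using (key (σ.symm j)).2
  have hmono : StrictMono p := by
    intro i j hij
    have := hy.1 hij
    rw [hp, hp] at this
    exact hy'.1.lt_iff_lt.1 this
  have hid : p = id := (StrictMono.range_inj hmono strictMono_id).1 (by
    rw [Set.range_id]
    exact (σ'.surjective.comp σ.symm.surjective).range_eq)
  funext j
  have := (key (σ.symm j)).1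
  rw [σ.apply_symm_apply, show σ' (σ.symm j) = j from congrFun hid j] at this
  exact Fin.ext this

/-- The index set of the cells above the level `l`. -/
abbrev Layer (n m l : ℕ) := {c : Fin n → Fin m // ∃ i, l ≤ (c i : ℕ)}

theorem card_layer {m l : ℕ} (h : l ≤ m) : Fintype.card (Layer n m l) = m ^ n - l ^ n := by
  classical
  have e : Fintype.card {c : Fin n → Fin m // ¬ ∃ i, l ≤ (c i : ℕ)} = l ^ n := by
    have E : {c : Fin n → Fin m // ¬ ∃ i, l ≤ (c i : ℕ)} ≃ (Fin n → Fin l) :=
      { toFun := fun c i => ⟨c.1 i, not_le.1 (fun hh => c.2 ⟨i, hh⟩)⟩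
        invFun := fun d => ⟨fun i => Fin.castLE h (d i), by
          rintro ⟨i, hi⟩
          simp only [Fin.val_castLE] at hi
          have := (d i).isLt
          omega⟩
        left_inv := fun c => rfl
        right_inv := fun d => rfl }
    rw [Fintype.card_congr E, Fintype.card_fun, Fintype.card_fin, Fintype.card_fin]
  have := Fintype.card_subtype_compl (fun c : Fin n → Fin m => ∃ i, l ≤ (c i : ℕ))
  rw [e, Fintype.card_fun, Fintype.card_fin, Fintype.card_fin] at this
  have hle : Fintype.card {x : Fin n → Fin m // ∃ i, l ≤ (x i : ℕ)} ≤ m ^ n := by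
    refine (Fintype.card_subtype_le _).trans ?_
    simp
  show Fintype.card {x : Fin n → Fin m // ∃ i, l ≤ (x i : ℕ)} = _
  omega

/-- One simplex of size `a` and the cells of size `h` above it. -/
theorem pack_layers {R a h : ℝ} {m l : ℕ} (hh : 0 < h) (hm : m * h ≤ R)
    (ha : a + ((m : ℝ) - l) * h ≤ R) (haR : a ≤ R) :
    PackInto (ordSimplex n R) (fun o : Option (Layer n m l) => o.elim a fun _ => h) := by
  have hD : 0 ≤ R - m * h := by linarith
  refine ⟨fun o => o.elim (1, 0) fun c => freudenthal h (R - m * h) c.1, ?_, ?_⟩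
  · rintro (_ | c) _ ⟨y, hy, rfl⟩
    · have : Placement.app ((1, 0) : Placement n) y = y := by funext i; simp [Placement.app]
      simp only [Option.elim_none] at hy ⊢
      rw [this]
      exact ordSimplex_mono haR hy
    · have := freudenthal_mem hh hD c.1 hy
      simpa using this
  · have hnc : ∀ c : Layer n m l, Disjoint
        (Placement.app ((1, 0) : Placement n) '' ordSimplex n a)
        (Placement.app (freudenthal h (R - m * h) c.1) '' ordSimplex n h) := by
      intro c
      rw [Set.disjoint_left]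
      rintro _ ⟨y, hy, rfl⟩ ⟨z, hz, he⟩
      obtain ⟨i, hi⟩ := c.2
      set σ := (freudenthal h (R - m * h) c.1).1
      have e : R - m * h + h * ((c.1 (σ (σ.symm i)) : ℕ) : ℝ) + z (σ (σ.symm i))
          = 0 + y ((1 : Equiv.Perm (Fin n)) (σ.symm i)) := congrFun he (σ.symm i)
      rw [σ.apply_symm_apply] at e
      have hi' : (l : ℝ) ≤ (c.1 i : ℕ) := by exact_mod_cast hi
      nlinarith [hz.2 i, hy.2 ((1 : Equiv.Perm (Fin n)) (σ.symm i))]
    rintro (_ | c) (_ | c') hne
    · exact absurd rfl hne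
    · exact hnc c'
    · exact (hnc c).symm
    · rw [Set.disjoint_left]
      rintro _ ⟨y, hy, rfl⟩ ⟨z, hz, he⟩
      exact hne (congrArg some (Subtype.ext (freudenthal_disjoint hh hy hz he.symm)))

theorem pack_children {h : ℝ} (hh : 0 < h) {m : ℕ} (hm : 0 < m) :
    PackInto (ordSimplex n h) (fun _ : Fin n → Fin m => h / m) := by
  have hm' : (0 : ℝ) < m := by exact_mod_cast hm
  refine ⟨fun c => freudenthal (h / m) 0 c, ?_, ?_⟩
  · rintro c _ ⟨y, hy, rfl⟩
    have := freudenthal_mem (div_pos hh hm') le_rfl c hy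
    rwa [zero_add, mul_div_cancel₀ _ hm'.ne'] at this
  · intro c c' hne
    rw [Set.disjoint_left]
    rintro _ ⟨y, hy, rfl⟩ ⟨z, hz, he⟩
    exact hne (freudenthal_disjoint (div_pos hh hm') hy hz he.symm)

theorem pack_dyadic_nat (J : ℕ) : ∀ {ι κ : Type} [Fintype ι] [Fintype κ]
    {S : Set (Fin n → ℝ)} {h : ℝ} (j : ι → ℕ), 0 < h → (∀ i, j i ≤ J) →
    PackInto S (fun _ : κ => h) →
    (∑ i, (2 ^ n) ^ (J - j i) ≤ Fintype.card κ * (2 ^ n) ^ J) →
    PackInto S (fun i => h / 2 ^ (j i)) := by
  induction J with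
  | zero =>
    intro ι κ _ _ S h j hh hj hS hsum
    have hcard : Fintype.card ι ≤ Fintype.card κ := by simpa using hsum
    obtain ⟨e⟩ := Function.Embedding.nonempty_of_card_le hcard
    exact (hS.reindex e).mono fun i => by simp [Nat.le_zero.1 (hj i)]
  | succ J ih =>
    intro ι κ _ _ S h j hh hj hS hsum
    classical
    have hsplit : ∑ i : {i // j i = 0}, (2 ^ n) ^ (J + 1 - j i.1)
        + ∑ i : {i // ¬ j i = 0}, (2 ^ n) ^ (J + 1 - j i.1) = ∑ i, (2 ^ n) ^ (J + 1 - j i) :=
      Fintype.sum_subtype_add_sum_subtype (fun i => j i = 0) (fun i => (2 ^ n) ^ (J + 1 - j i))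
    have h0 : ∑ i : {i // j i = 0}, (2 ^ n) ^ (J + 1 - j i.1)
        = Fintype.card {i // j i = 0} * (2 ^ n) ^ (J + 1) := by
      rw [Finset.sum_congr rfl (fun i _ => by rw [i.2, Nat.sub_zero])]
      simp
    have hq : 0 < (2 ^ n) ^ (J + 1) := by positivity
    have hZ : Fintype.card {i // j i = 0} ≤ Fintype.card κ := by
      refine Nat.le_of_mul_le_mul_right ?_ hq
      omega
    obtain ⟨e⟩ := Function.Embedding.nonempty_of_card_le hZ
    let κ₀ := {x : κ // x ∉ Set.range e}
    have hκ₀ : Fintype.card κ₀ + Fintype.card {i // j i = 0} = Fintype.card κ := by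
      have h1 := Fintype.card_subtype_compl (fun x : κ => x ∈ Set.range e)
      have h2 : Fintype.card {x // x ∈ Set.range e} = Fintype.card {i // j i = 0} :=
        (Fintype.card_congr (Equiv.ofInjective e e.injective)).symm
      change Fintype.card κ₀ = _ at h1
      omega
    obtain ⟨c₀, s1, s2⟩ := hS
    let S' : Set (Fin n → ℝ) := ⋃ x : κ₀, Placement.app (c₀ x.1) '' ordSimplex n h
    have hS' : PackInto S' (fun _ : κ₀ => h) :=
      ⟨fun x => c₀ x.1, fun x => Set.subset_iUnion (fun x : κ₀ =>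
        Placement.app (c₀ x.1) '' ordSimplex n h) x,
        fun x y hxy => s2 _ _ (fun h => hxy (Subtype.ext h))⟩
    have hch := pack_children (n := n) hh (m := 2) (by norm_num)
    have hchild : PackInto S' (fun _ : κ₀ × (Fin n → Fin 2) => h / 2) := by
      have := (hS'.nested (fun _ : κ₀ => hch)).reindex
        (Equiv.sigmaEquivProd κ₀ (Fin n → Fin 2)).symm.toEmbedding
      simpa [Function.comp_def] using this
    have hcard : ∑ i : {i // ¬ j i = 0}, (2 ^ n) ^ (J - (j i.1 - 1))
        ≤ Fintype.card (κ₀ × (Fin n → Fin 2)) * (2 ^ n) ^ J := by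
      have e1 : ∑ i : {i // ¬ j i = 0}, (2 ^ n) ^ (J - (j i.1 - 1))
          = ∑ i : {i // ¬ j i = 0}, (2 ^ n) ^ (J + 1 - j i.1) :=
        Finset.sum_congr rfl fun i _ => by
          congr 1
          have := i.2
          omega
      rw [e1, Fintype.card_prod, Fintype.card_fun, Fintype.card_fin, Fintype.card_fin,
        mul_assoc, ← pow_succ']
      rw [← hκ₀, add_mul] at hsum
      omega
    obtain ⟨c', d1, d2⟩ := ih (fun i : {i // ¬ j i = 0} => j i.1 - 1) (half_pos hh)
      (fun i => by have := hj i.1; omega) hchild hcard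
    have hsize : ∀ i : {i // ¬ j i = 0}, h / 2 / 2 ^ (j i.1 - 1) = h / 2 ^ (j i.1) := by
      intro i
      rw [div_div, ← pow_succ']
      congr 2
      have := i.2
      omega
    refine ⟨fun i => if hi : j i = 0 then c₀ (e ⟨i, hi⟩) else c' ⟨i, hi⟩, ?_, ?_⟩
    · intro i
      by_cases hi : j i = 0
      · simp only [hi, pow_zero, div_one]
        exact s1 _
      · simp only [dif_neg hi]
        rw [← hsize ⟨i, hi⟩]
        exact (d1 ⟨i, hi⟩).trans (Set.iUnion_subset fun x => s1 _)
    · intro i i' hne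
      have mix : ∀ a b (ha : j a = 0) (hb : ¬ j b = 0),
          Disjoint (Placement.app (c₀ (e ⟨a, ha⟩)) '' ordSimplex n h)
            (Placement.app (c' ⟨b, hb⟩) '' ordSimplex n (h / 2 ^ (j b))) := by
        intro a b ha hb
        rw [← hsize ⟨b, hb⟩]
        exact Set.disjoint_of_subset_right (d1 ⟨b, hb⟩) (Set.disjoint_iUnion_right.2 fun x =>
          s2 _ _ (fun h => x.2 ⟨_, h⟩))
      by_cases hi : j i = 0 <;> by_cases hi' : j i' = 0
      · simp only [hi, hi', pow_zero, div_one]
        exact s2 _ _ (fun h => hne (congrArg Subtype.val (e.injective h)))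
      · simp only [dif_neg hi', hi, pow_zero, div_one]
        exact mix i i' hi hi'
      · simp only [dif_neg hi, hi', pow_zero, div_one]
        exact (mix i' i hi' hi).symm
      · simp only [dif_neg hi, dif_neg hi']
        rw [← hsize ⟨i, hi⟩, ← hsize ⟨i', hi'⟩]
        exact d2 _ _ (fun h => hne (congrArg Subtype.val h))

theorem pack_dyadic {ι κ : Type} [Fintype ι] [Fintype κ] {S : Set (Fin n → ℝ)} {h : ℝ}
    (j : ι → ℕ) (hh : 0 < h) (hS : PackInto S (fun _ : κ => h))
    (hsum : ∑ i, (h / 2 ^ (j i)) ^ n ≤ Fintype.card κ * h ^ n) :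
    PackInto S (fun i => h / 2 ^ (j i)) := by
  set J := ∑ i, j i
  have hj : ∀ i, j i ≤ J := fun i => Finset.single_le_sum (fun i _ => Nat.zero_le _)
    (Finset.mem_univ i)
  refine pack_dyadic_nat J j hh hj hS ?_
  have hpos : (0 : ℝ) < ((2 : ℝ) ^ n) ^ J / h ^ n := by positivity
  have h2 := mul_le_mul_of_nonneg_left hsum hpos.le
  rw [Finset.mul_sum] at h2
  have e : ∀ i, ((2 : ℝ) ^ n) ^ J / h ^ n * (h / 2 ^ (j i)) ^ n
      = ((2 : ℝ) ^ n) ^ (J - j i) := by
    intro i
    rw [pow_sub₀ _ (by positivity) (hj i), div_pow, ← pow_mul 2 (j i) n, ← pow_mul 2 n (j i),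
      Nat.mul_comm (j i) n]
    field_simp
  rw [Finset.sum_congr rfl (fun i _ => e i)] at h2
  have e2 : ((2 : ℝ) ^ n) ^ J / h ^ n * (Fintype.card κ * h ^ n)
      = Fintype.card κ * ((2 : ℝ) ^ n) ^ J := by field_simp
  rw [e2] at h2
  exact_mod_cast h2

end Vale.Agent.P209
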