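import Mathlib
import Vale.Agent.P209.Cells

/-! Simplex packings for the configurations of the main theorem. -/

namespace Vale.Agent.P209

variable {n k : ℕ}

theorem exists_split {R a h : ℝ} {m l : ℕ} (hh : 0 < h) (hm : m * h ≤ R)
    (ha : a + ((m : ℝ) - l) * h ≤ R) (haR : a ≤ R) (r : Fin k → ℝ) (i₀ : Fin k)
    (hr₀ : r i₀ ≤ a)
    (hrest : ∀ S : Set (Fin n → ℝ), PackInto S (fun _ : Layer n m l => h) →
      PackInto S (fun i : {i // i ≠ i₀} => r i.1)) :
    PackInto (ordSimplex n R) r := by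
  obtain ⟨c, c1, c2⟩ := pack_layers (n := n) hh hm ha haR
  let S : Set (Fin n → ℝ) := ⋃ x : Layer n m l, Placement.app (c (some x)) '' ordSimplex n h
  obtain ⟨d, d1, d2⟩ := hrest S
    ⟨fun x => c (some x), fun x => Set.subset_iUnion
      (fun x : Layer n m l => Placement.app (c (some x)) '' ordSimplex n h) x,
      fun x y hxy => c2 (some x) (some y) (fun h => hxy (Option.some.inj h))⟩
  have hsub0 : Placement.app (c none) '' ordSimplex n (r i₀)
      ⊆ Placement.app (c none) '' ordSimplex n a := Set.image_mono (ordSimplex_mono hr₀)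
  have hdis : ∀ i : {i // i ≠ i₀}, Disjoint (Placement.app (c none) '' ordSimplex n (r i₀))
      (Placement.app (d i) '' ordSimplex n (r i.1)) := fun i =>
    Set.disjoint_of_subset hsub0 (d1 i)
      (Set.disjoint_iUnion_right.2 fun x => c2 none (some x) (by simp))
  refine ⟨fun i => if hi : i = i₀ then c none else d ⟨i, hi⟩, ?_, ?_⟩
  · intro i
    by_cases hi : i = i₀
    · subst hi
      simp only [dite_true]
      exact hsub0.trans (c1 none)
    · simp only [dif_neg hi]
      exact (d1 ⟨i, hi⟩).trans (Set.iUnion_subset fun x => c1 (some x))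
  · intro i j hij
    by_cases hi : i = i₀
    · subst hi
      have hj : j ≠ i := Ne.symm hij
      simp only [dite_true, dif_neg hj]
      exact hdis ⟨j, hj⟩
    · by_cases hj : j = i₀
      · subst hj
        simp only [dite_true, dif_neg hi]
        exact (hdis ⟨i, hi⟩).symm
      · simp only [dif_neg hi, dif_neg hj]
        exact d2 _ _ (fun h => hij (congrArg Subtype.val h))

/-- one large ball and at most `m^n - l^n` others of size at most `h` -/
theorem pack_count {R h : ℝ} {m l : ℕ} (hlm : l ≤ m) (hh : 0 < h) (hm : m * h ≤ R)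
    (r : Fin k → ℝ) (i₀ : Fin k) (ha : r i₀ + ((m : ℝ) - l) * h ≤ R)
    (hk : k - 1 ≤ m ^ n - l ^ n) (hr : ∀ i, i ≠ i₀ → r i ≤ h) :
    PackInto (ordSimplex n R) r := by
  have haR : r i₀ ≤ R := by
    have : (0 : ℝ) ≤ (m : ℝ) - l := by simpa using (Nat.cast_le (α := ℝ)).2 hlm
    nlinarith
  refine exists_split hh hm ha haR r i₀ le_rfl fun S hS => ?_
  have : Fintype.card {i // i ≠ i₀} ≤ Fintype.card (Layer n m l) := by
    rw [card_layer hlm, Fintype.card_subtype_compl, Fintype.card_fin,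
      Fintype.card_subtype_eq]
    omega
  obtain ⟨e⟩ := Function.Embedding.nonempty_of_card_le this
  exact (hS.reindex e).mono fun i => hr i.1 i.2

theorem exists_level {h r : ℝ} (hr : 0 < r) (hh : r ≤ h) :
    ∃ j : ℕ, r ≤ h / 2 ^ j ∧ h / 2 ^ (j + 1) < r := by
  classical
  have hex : ∃ j : ℕ, h / 2 ^ (j + 1) < r := by
    obtain ⟨j, hj⟩ := pow_unbounded_of_one_lt (h / r) (by norm_num : (1 : ℝ) < 2)
    refine ⟨j, ?_⟩
    rw [div_lt_iff₀ hr] at hj
    rw [div_lt_iff₀ (by positivity), pow_succ]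
    nlinarith [pow_pos (two_pos : (0 : ℝ) < 2) j]
  refine ⟨Nat.find hex, ?_, Nat.find_spec hex⟩
  cases hj : Nat.find hex with
  | zero => simpa using hh
  | succ i =>
    have := Nat.find_min hex (show i < Nat.find hex by omega)
    exact not_lt.1 this

theorem pack_round {ι κ : Type} [Fintype ι] [Fintype κ] {S : Set (Fin n → ℝ)} {h : ℝ}
    (r : ι → ℝ) (hh : 0 < h) (hr : ∀ i, 0 < r i ∧ r i ≤ h)
    (hS : PackInto S (fun _ : κ => h))
    (hsum : 2 ^ n * ∑ i, r i ^ n ≤ Fintype.card κ * h ^ n) : PackInto S r := by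
  choose j j1 j2 using fun i => exists_level (hr i).1 (hr i).2
  refine (pack_dyadic j hh hS ?_).mono j1
  refine le_trans ?_ hsum
  rw [Finset.mul_sum]
  refine Finset.sum_le_sum fun i _ => ?_
  rw [← mul_pow]
  refine pow_le_pow_left₀ (by positivity) ?_ n
  have := j2 i
  rw [pow_succ, div_lt_iff₀ (by positivity)] at this
  rw [div_le_iff₀ (by positivity)]
  linarith

theorem sub_pow_le {x y : ℝ} (hy : 0 ≤ y) (hxy : y ≤ x) (n : ℕ) :
    x ^ n - y ^ n ≤ n * (x - y) * x ^ (n - 1) ∧ (1 ≤ n → (x - y) * x ^ (n - 1) ≤ x ^ n - y ^ n) := by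
  induction n with
  | zero => simp
  | succ n ih =>
    rcases Nat.eq_zero_or_pos n with rfl | hn
    · simp
    obtain ⟨h1, h2⟩ := ih
    specialize h2 hn
    have e : x ^ n = x * x ^ (n - 1) := by rw [← pow_succ']; congr 1; omega
    have hyx : y ^ n ≤ x ^ n := pow_le_pow_left₀ hy hxy n
    simp only [Nat.add_sub_cancel, pow_succ, Nat.cast_succ]
    constructor
    · have := mul_le_mul_of_nonneg_right h1 (hy.trans hxy)
      have := mul_le_mul_of_nonneg_right hyx (sub_nonneg.2 hxy)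
      rw [e] at *
      linarith
    · intro _
      have := mul_le_mul_of_nonneg_right hyx hy
      nlinarith [mul_le_mul_of_nonneg_left hxy (pow_nonneg (hy.trans hxy) n),
        mul_le_mul_of_nonneg_left hyx hy, pow_nonneg hy n]

theorem nat_ratio (n m : ℕ) (hm : 2 ≤ m) :
    ((m : ℝ) + 1) ^ (n + 1) - (m : ℝ) ^ (n + 1)
      ≤ 2 ^ (n + 1) * ((m : ℝ) ^ (n + 1) - ((m : ℝ) - 1) ^ (n + 1)) := by
  have hm' : (2 : ℝ) ≤ m := by exact_mod_cast hm
  have h1 := (sub_pow_le (x := (m : ℝ) + 1) (y := m) (by linarith) (by linarith) (n + 1)).1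
  have h2 := (sub_pow_le (x := (m : ℝ)) (y := (m : ℝ) - 1) (by linarith) (by linarith) (n + 1)).2
    (by omega)
  simp only [Nat.add_sub_cancel, add_sub_cancel_left, mul_one, sub_sub_cancel, one_mul] at h1 h2
  have h3 : ((n + 1 : ℕ) : ℝ) * ((m : ℝ) + 1) ^ n ≤ 2 ^ (n + 1) * (m : ℝ) ^ n := by
    have h4 : ((n + 1 : ℕ) : ℝ) * (3 / 2 : ℝ) ^ n ≤ 2 ^ (n + 1) := by
      have key : ∀ q : ℕ, ((q + 1 : ℕ) : ℝ) ≤ 2 * (4 / 3 : ℝ) ^ q := by
        intro q
        induction q with
        | zero => norm_num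
        | succ q ih =>
          rcases le_or_gt 3 q with hq | hq
          · have : (3 : ℝ) ≤ q := by exact_mod_cast hq
            push_cast at ih ⊢
            rw [pow_succ]
            nlinarith
          · interval_cases q <;> norm_num
      calc ((n + 1 : ℕ) : ℝ) * (3 / 2 : ℝ) ^ n ≤ 2 * (4 / 3 : ℝ) ^ n * (3 / 2) ^ n :=
            mul_le_mul_of_nonneg_right (key n) (by positivity)
        _ = 2 ^ (n + 1) := by
            rw [mul_assoc, ← mul_pow, pow_succ]; norm_num; ring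
    calc ((n + 1 : ℕ) : ℝ) * ((m : ℝ) + 1) ^ n
        ≤ ((n + 1 : ℕ) : ℝ) * ((3 / 2) ^ n * (m : ℝ) ^ n) := by
          rw [← mul_pow]
          gcongr
          linarith
      _ ≤ _ := by rw [← mul_assoc]; gcongr
  have h5 := mul_le_mul_of_nonneg_left h2 (by positivity : (0 : ℝ) ≤ 2 ^ (n + 1))
  linarith

/-- all `k`: the two conditions suffice up to the factor `4^n` on all but one ball -/
theorem pack_const {R : ℝ} (hn : 1 ≤ n) (r : Fin k → ℝ) (i₀ : Fin k) (hr : ∀ i, 0 < r i)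
    (hmax : ∀ i, r i ≤ r i₀) (hpair : ∀ i, i ≠ i₀ → r i₀ + r i ≤ R) (hR : r i₀ < R)
    (hvol : 4 ^ n * ∑ i : {i // i ≠ i₀}, r i.1 ^ n ≤ R ^ n - r i₀ ^ n) :
    PackInto (ordSimplex n R) r := by
  have hR0 : 0 < R := (hr i₀).trans hR
  obtain ⟨n, rfl⟩ : ∃ q, n = q + 1 := ⟨n - 1, by omega⟩
  set σ := ∑ i : {i // i ≠ i₀}, r i.1 ^ (n + 1)
  have hσ : 0 ≤ σ := Finset.sum_nonneg fun i _ => pow_nonneg (hr i.1).le _
  have h4 : (4 : ℝ) ^ (n + 1) = 2 ^ (n + 1) * 2 ^ (n + 1) := by rw [← mul_pow]; norm_num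
  rcases le_or_gt (r i₀) (R / 2) with hhalf | hhalf
  · refine exists_split (h := R / 2) (m := 2) (l := 1) (a := R / 2) (by positivity)
      (by push_cast; linarith) (by push_cast; linarith) (by linarith) r i₀ hhalf fun S hS => ?_
    refine pack_round _ (by positivity) (fun i => ⟨hr i.1, (hmax i.1).trans hhalf⟩) hS ?_
    rw [card_layer (by norm_num : 1 ≤ 2), one_pow]
    have h2 : (2 : ℕ) ^ (n + 1) - 1 ≥ 1 := by
      have : 2 ≤ 2 ^ (n + 1) := Nat.le_self_pow (by omega) 2
      omega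
    have hcast : (1 : ℝ) ≤ ((2 ^ (n + 1) - 1 : ℕ) : ℝ) := by exact_mod_cast h2
    have hp := pow_nonneg (hr i₀).le (n + 1)
    have : 2 ^ (n + 1) * σ * 2 ^ (n + 1) ≤ R ^ (n + 1) := by nlinarith
    calc 2 ^ (n + 1) * σ ≤ 1 * (R / 2) ^ (n + 1) := by
          rw [one_mul, div_pow, le_div_iff₀ (by positivity)]; exact this
      _ ≤ _ := mul_le_mul_of_nonneg_right hcast (by positivity)
  · set s := R - r i₀ with hs
    have hs0 : 0 < s := by linarith
    set m := ⌊R / s⌋₊ with hm
    have hm1 : (m : ℝ) ≤ R / s := Nat.floor_le (by positivity)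
    have hm2 : R / s < m + 1 := Nat.lt_floor_add_one _
    have hm3 : 2 ≤ m := Nat.le_floor (by rw [le_div_iff₀ hs0]; push_cast; linarith)
    rw [le_div_iff₀ hs0] at hm1
    rw [div_lt_iff₀ hs0] at hm2
    refine exists_split (h := s) (m := m) (l := m - 1) (a := r i₀) hs0 hm1
      (by rw [Nat.cast_sub (by omega)]; push_cast; linarith) hR.le r i₀ le_rfl fun S hS => ?_
    refine pack_round _ hs0 (fun i => ⟨hr i.1, by linarith [hpair i.1 i.2]⟩) hS ?_
    rw [card_layer (by omega : m - 1 ≤ m), Nat.cast_sub (Nat.pow_le_pow_left (by omega) _),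
      Nat.cast_pow, Nat.cast_pow, Nat.cast_sub (by omega), Nat.cast_one]
    have hRs : R ^ (n + 1) - r i₀ ^ (n + 1) ≤ (((m : ℝ) + 1) ^ (n + 1) - (m : ℝ) ^ (n + 1)) * s ^ (n + 1) := by
      rw [sub_mul, ← mul_pow, ← mul_pow]
      -- monotonicity of x ↦ x^(n+1) - (x - s)^(n+1)
      have hmono : MonotoneOn (fun x : ℝ => x ^ (n + 1) - (x - s) ^ (n + 1)) (Set.Ici s) := by
        intro x hx y hy hxy
        simp only [Set.mem_Ici] at hx hy
        have hgeom : ∀ z : ℝ, z ^ (n + 1) - (z - s) ^ (n + 1)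
            = (∑ i ∈ Finset.range (n + 1), z ^ i * (z - s) ^ (n - i)) * s := by
          intro z
          have := geom_sum₂_mul z (z - s) (n + 1)
          simpa using this.symm
        simp only [hgeom]
        refine mul_le_mul_of_nonneg_right (Finset.sum_le_sum fun i _ => ?_) hs0.le
        have hy0 : 0 ≤ y := by linarith
        have hx0 : 0 ≤ x := by linarith
        have hys : 0 ≤ y - s := by linarith
        have hxs : 0 ≤ x - s := by linarith
        gcongr
      have := hmono (Set.mem_Ici.2 (by linarith)) (Set.mem_Ici.2 (by nlinarith [mul_nonneg (Nat.cast_nonneg m : (0:ℝ) ≤ m) hs0.le]))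
        hm2.le
      simp only at this
      rw [show R - s = r i₀ by rw [hs]; ring,
        show ((m : ℝ) + 1) * s - s = (m : ℝ) * s by ring] at this
      exact this
    have hr2 := mul_le_mul_of_nonneg_right (nat_ratio n m hm3) (pow_nonneg hs0.le (n + 1))
    have hall : 2 ^ (n + 1) * (2 ^ (n + 1) * σ)
        ≤ 2 ^ (n + 1) * (((m : ℝ) ^ (n + 1) - ((m : ℝ) - 1) ^ (n + 1)) * s ^ (n + 1)) := by
      rw [← mul_assoc, ← h4]; linarith
    exact le_of_mul_le_mul_left hall (by positivity)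

end Vale.Agent.P209
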