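import Mathlib
import Vale.Agent.P209.Configs

/-! One arbitrary ball and small balls: the volume is asymptotically the only obstruction. -/

namespace Vale.Agent.P209

variable {n k : ℕ}

theorem PackInto.fibers {ι γ : Type*} {S : Set (Fin n → ℝ)} {r : ι → ℝ} (cl : ι → γ)
    (T : γ → Set (Fin n → ℝ)) (hT : ∀ g, T g ⊆ S)
    (hdis : ∀ g g', g ≠ g' → Disjoint (T g) (T g'))
    (h : ∀ g, PackInto (T g) (fun i : {i // cl i = g} => r i.1)) : PackInto S r := by
  choose c c1 c2 using h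
  refine ⟨fun i => c (cl i) ⟨i, rfl⟩, fun i => (c1 (cl i) ⟨i, rfl⟩).trans (hT _), ?_⟩
  intro i j hij
  have key : ∀ (g : γ) (hg : cl i = g), Disjoint
      (Placement.app (c g ⟨i, hg⟩) '' ordSimplex n (r i))
      (Placement.app (c (cl j) ⟨j, rfl⟩) '' ordSimplex n (r j)) := by
    intro g hg
    by_cases hgj : g = cl j
    · subst hgj
      exact c2 (cl j) ⟨i, hg⟩ ⟨j, rfl⟩ (fun h => hij (congrArg Subtype.val h))
    · exact Set.disjoint_of_subset (c1 g ⟨i, hg⟩) (c1 (cl j) ⟨j, rfl⟩) (hdis g (cl j) hgj)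
  exact key (cl i) rfl

theorem exists_class {h r : ℝ} {P : ℕ} (hP : 0 < P) (hr : 0 < r) (hh : r ≤ h / P) :
    ∃ p : Fin P, ∃ j : ℕ, r ≤ h / ((P : ℝ) + p) / 2 ^ j ∧
      h / ((P : ℝ) + p) / 2 ^ j ≤ r * (1 + 1 / (P : ℝ)) := by
  obtain ⟨j, j1, j2⟩ := exists_level hr hh
  have hP' : (0 : ℝ) < P := by exact_mod_cast hP
  have h2 : (0 : ℝ) < 2 ^ j := by positivity
  set x := h / (2 ^ j * r) with hx
  have hh0 : 0 < h := by
    rw [le_div_iff₀ hP'] at hh
    nlinarith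
  have hxP : (P : ℝ) ≤ x := by
    rw [hx, le_div_iff₀ (by positivity)]
    rw [div_div, le_div_iff₀ (by positivity)] at j1
    linarith
  have hx2 : x < 2 * P := by
    rw [hx, div_lt_iff₀ (by positivity)]
    rw [div_div, div_lt_iff₀ (by positivity), pow_succ] at j2
    linarith
  have hx0 : 0 ≤ x := hP'.le.trans hxP
  have f1 := Nat.floor_le hx0
  have f2 := Nat.lt_floor_add_one x
  have f3 : P ≤ ⌊x⌋₊ := Nat.le_floor hxP
  have f4 : ⌊x⌋₊ < 2 * P := (Nat.floor_lt hx0).2 (by push_cast; linarith)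
  refine ⟨⟨⌊x⌋₊ - P, by omega⟩, j, ?_, ?_⟩ <;>
    simp only [Nat.cast_sub f3, add_sub_cancel]
  · have hq : (0 : ℝ) < ⌊x⌋₊ := hP'.trans_le (by exact_mod_cast f3)
    rw [div_div, le_div_iff₀ (by positivity)]
    have := mul_le_mul_of_nonneg_right f1 (by positivity : (0 : ℝ) ≤ 2 ^ j * r)
    rw [show x * (2 ^ j * r) = h by rw [hx]; field_simp] at this
    linarith
  · have hq : (P : ℝ) ≤ ⌊x⌋₊ := by exact_mod_cast f3
    have hq0 : (0 : ℝ) < ⌊x⌋₊ := hP'.trans_le hq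
    rw [div_div, div_le_iff₀ (by positivity)]
    have e : h = x * (2 ^ j * r) := by rw [hx]; field_simp
    have h1 : x ≤ (⌊x⌋₊ : ℝ) * (1 + 1 / (P : ℝ)) := by
      rw [mul_add, mul_one_div, mul_one]
      have : (1 : ℝ) ≤ (⌊x⌋₊ : ℝ) / P := by rw [le_div_iff₀ hP']; linarith
      linarith
    calc h = x * (2 ^ j * r) := e
      _ ≤ (⌊x⌋₊ : ℝ) * (1 + 1 / (P : ℝ)) * (2 ^ j * r) :=
          mul_le_mul_of_nonneg_right h1 (by positivity)
      _ = _ := by ring

theorem pack_small {S : Set (Fin n → ℝ)} {h : ℝ} {P : ℕ} (hP : 0 < P) (hh : 0 < h)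
    {ι κ : Type} [Fintype ι] [Fintype κ] (hS : PackInto S (fun _ : κ => h)) (r : ι → ℝ)
    (hr : ∀ i, 0 < r i ∧ r i ≤ h / P)
    (hsum : (1 + 1 / (P : ℝ)) ^ n * ∑ i, r i ^ n + P * h ^ n ≤ Fintype.card κ * h ^ n) :
    PackInto S r := by
  classical
  choose cl j j1 j2 using fun i => exists_class hP (hr i).1 (hr i).2
  let b : ι → ℝ := fun i => h / ((P : ℝ) + cl i) / 2 ^ (j i)
  have hb0 : ∀ i, 0 ≤ b i := fun i => by positivity
  let V : Fin P → ℝ := fun p => ∑ i : {i // cl i = p}, b i.1 ^ n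
  let N : Fin P → ℕ := fun p => ⌈V p / h ^ n⌉₊
  have hV : ∑ p, V p = ∑ i, b i ^ n := Fintype.sum_fiberwise cl (fun i => b i ^ n)
  have hN : Fintype.card (Σ p, Fin (N p)) ≤ Fintype.card κ := by
    have hb : ∑ i, b i ^ n ≤ (1 + 1 / (P : ℝ)) ^ n * ∑ i, r i ^ n := by
      rw [Finset.mul_sum]
      refine Finset.sum_le_sum fun i _ => ?_
      rw [← mul_pow]
      exact pow_le_pow_left₀ (hb0 i) ((j2 i).trans_eq (mul_comm _ _)) n
    have h1 : ∀ p, (N p : ℝ) * h ^ n ≤ V p + h ^ n := by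
      intro p
      have hV0 : 0 ≤ V p / h ^ n :=
        div_nonneg (Finset.sum_nonneg fun i _ => pow_nonneg (hb0 _) _) (by positivity)
      have := (Nat.ceil_lt_add_one hV0).le
      have h2 := mul_le_mul_of_nonneg_right this (pow_nonneg hh.le n)
      rw [add_mul, one_mul, div_mul_cancel₀ _ (by positivity)] at h2
      exact h2
    have h2 : (∑ p, (N p : ℝ)) * h ^ n ≤ Fintype.card κ * h ^ n := by
      rw [Finset.sum_mul]
      refine le_trans (Finset.sum_le_sum fun p _ => h1 p) ?_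
      rw [Finset.sum_add_distrib, hV]
      simp only [Finset.sum_const, Finset.card_univ, Fintype.card_fin, nsmul_eq_mul]
      linarith
    have h3 := le_of_mul_le_mul_right h2 (pow_pos hh n)
    rw [Fintype.card_sigma]
    simp only [Fintype.card_fin]
    exact_mod_cast h3
  obtain ⟨e⟩ := Function.Embedding.nonempty_of_card_le hN
  obtain ⟨c, c1, c2⟩ := hS
  let T : Fin P → Set (Fin n → ℝ) := fun p =>
    ⋃ x : Fin (N p), Placement.app (c (e ⟨p, x⟩)) '' ordSimplex n h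
  refine PackInto.fibers cl T (fun p => Set.iUnion_subset fun x => c1 _) ?_ fun p => ?_
  · intro p q hpq
    simp only [T, Set.disjoint_iUnion_left, Set.disjoint_iUnion_right]
    intro x y
    exact c2 _ _ (fun h => hpq (congrArg Sigma.fst (e.injective h)))
  · have hT : PackInto (T p) (fun _ : Fin (N p) => h) :=
      ⟨fun x => c (e ⟨p, x⟩), fun x => Set.subset_iUnion
        (fun x : Fin (N p) => Placement.app (c (e ⟨p, x⟩)) '' ordSimplex n h) x,
        fun x y hxy => c2 _ _ (fun h => hxy (eq_of_heq (Sigma.mk.inj (e.injective h)).2))⟩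
    have hpos : 0 < P + (p : ℕ) := by omega
    have hroots := hT.nested (fun _ : Fin (N p) => pack_children (n := n) hh (m := P + (p : ℕ)) hpos)
    have hcast : ((P + (p : ℕ) : ℕ) : ℝ) = (P : ℝ) + p := by push_cast; ring
    rw [hcast] at hroots
    refine (pack_dyadic (fun i : {i // cl i = p} => j i.1) (by positivity) hroots ?_).mono
      fun i => by have := j1 i.1; rwa [i.2] at this
    have e1 : ∑ i : {i // cl i = p}, (h / ((P : ℝ) + p) / 2 ^ (j i.1)) ^ n = V p :=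
      Finset.sum_congr rfl fun i _ => by simp only [b, i.2]
    rw [e1]
    have e2 : ((Fintype.card (Σ _ : Fin (N p), Fin n → Fin (P + (p : ℕ))) : ℕ) : ℝ)
        = (N p : ℝ) * ((P : ℝ) + p) ^ n := by
      simp [hcast]
    rw [e2, mul_assoc, ← mul_pow, mul_div_cancel₀ _ (by positivity)]
    have := Nat.le_ceil (V p / h ^ n)
    rw [div_le_iff₀ (pow_pos hh n)] at this
    exact this

theorem pack_asymp (hn : 1 ≤ n) {ε : ℝ} (hε : 0 < ε) :
    ∃ δ : ℝ, 0 < δ ∧ ∀ (k : ℕ) (R : ℝ) (r : Fin k → ℝ) (i₀ : Fin k), (∀ i, 0 < r i) →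
      r i₀ < R → (∀ i, i ≠ i₀ → r i ≤ δ * (R - r i₀)) →
      (∑ i : {i // i ≠ i₀}, r i.1 ^ n) ≤ (1 - ε) * (R ^ n - r i₀ ^ n) →
      PackInto (ordSimplex n R) r := by
  set e := min ε 1 with he
  have he0 : 0 < e := lt_min hε one_pos
  have he1 : e ≤ 1 := min_le_right _ _
  obtain ⟨P, hP0, hP⟩ : ∃ P : ℕ, 0 < P ∧ (1 + 1 / (P : ℝ)) ^ n ≤ 1 + e / 4 := by
    have h1 : Filter.Tendsto (fun P : ℕ => (1 + 1 / (P : ℝ)) ^ n) Filter.atTop (nhds 1) := by
      have := ((tendsto_one_div_atTop_nhds_zero_nat (𝕜 := ℝ)).const_add 1).pow n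
      simpa using this
    obtain ⟨P, hP, hP'⟩ := ((h1.eventually_le_const (by linarith : (1 : ℝ) < 1 + e / 4)).and
      (Filter.eventually_gt_atTop 0)).exists
    exact ⟨P, hP', hP⟩
  set μ := min (1 / 2) (e / (8 * n + 4 * P)) with hμ
  have hμ0 : 0 < μ := lt_min (by norm_num) (by positivity)
  have hμ2 : μ * (8 * n + 4 * P) ≤ e := by
    rw [← le_div_iff₀ (by positivity)]; exact min_le_right _ _
  refine ⟨μ / P, by positivity, fun k R r i₀ hr haR hsmall hsum => ?_⟩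
  set a := r i₀ with ha
  have ha0 : 0 < a := hr i₀
  set s := R - a with hs
  have hs0 : 0 < s := by linarith
  set h := μ * s with hh
  have hh0 : 0 < h := by positivity
  have hhs : h ≤ s := by
    calc h ≤ 1 * s := by
          apply mul_le_mul_of_nonneg_right _ hs0.le
          exact (min_le_left _ _).trans (by norm_num)
      _ = s := one_mul s
  have hR0 : 0 < R := by linarith
  set m := ⌊R / h⌋₊ with hm
  set D := ⌊s / h⌋₊ with hD
  have hm1 : (m : ℝ) * h ≤ R := (le_div_iff₀ hh0).1 (Nat.floor_le (by positivity))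
  have hm2 : R < ((m : ℝ) + 1) * h := (div_lt_iff₀ hh0).1 (Nat.lt_floor_add_one _)
  have hD1 : (D : ℝ) * h ≤ s := (le_div_iff₀ hh0).1 (Nat.floor_le (by positivity))
  have hD2 : s < ((D : ℝ) + 1) * h := (div_lt_iff₀ hh0).1 (Nat.lt_floor_add_one _)
  have hDm : D ≤ m := Nat.floor_mono (div_le_div_of_nonneg_right (by linarith) hh0.le)
  refine exists_split (h := h) (m := m) (l := m - D) (a := a) hh0 hm1
    (by rw [Nat.cast_sub hDm]; linarith) haR.le r i₀ le_rfl fun S hS => ?_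
  refine pack_small hP0 hh0 hS _ (fun i => ⟨hr i.1, ?_⟩) ?_
  · refine (hsmall i.1 i.2).trans (le_of_eq ?_)
    rw [hh]; ring
  set Δ := R ^ n - a ^ n with hΔ
  have hΔ1 : s * R ^ (n - 1) ≤ Δ := (sub_pow_le ha0.le haR.le n).2 hn
  have hL : (m - D) ≤ m := Nat.sub_le _ _
  rw [card_layer hL, Nat.cast_sub (Nat.pow_le_pow_left hL n), Nat.cast_pow, Nat.cast_pow,
    Nat.cast_sub hDm, sub_mul, ← mul_pow, ← mul_pow]
  set X := (m : ℝ) * h
  set Y := ((m : ℝ) - D) * h with hY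
  have hY0 : 0 ≤ Y := mul_nonneg (by simpa using (Nat.cast_le (α := ℝ)).2 hDm) hh0.le
  have hYa : Y ≤ a + h := by rw [hY]; linarith
  have hahR : a + h ≤ R := by linarith
  have hX0 : 0 ≤ X := by positivity
  have hR1 : (0 : ℝ) ≤ R ^ (n - 1) := by positivity
  have k1 : R ^ n - X ^ n ≤ n * h * R ^ (n - 1) := by
    refine (sub_pow_le hX0 hm1 n).1.trans ?_
    gcongr
    linarith
  have k2 : (a + h) ^ n - a ^ n ≤ n * h * R ^ (n - 1) := by
    refine (sub_pow_le ha0.le (by linarith) n).1.trans ?_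
    rw [add_sub_cancel_left]
    gcongr
  have k3 : Y ^ n ≤ (a + h) ^ n := pow_le_pow_left₀ hY0 hYa n
  have k4 : h * R ^ (n - 1) ≤ μ * Δ := by
    rw [hh, mul_assoc]; exact mul_le_mul_of_nonneg_left hΔ1 hμ0.le
  have k5 : h ^ n ≤ μ * Δ := by
    refine le_trans ?_ k4
    calc h ^ n = h * h ^ (n - 1) := by rw [← pow_succ']; congr 1; omega
      _ ≤ _ := by gcongr; linarith
  have hΔ0 : 0 ≤ Δ := le_trans (by positivity) hΔ1
  have hσ0 : 0 ≤ ∑ i : {i // i ≠ i₀}, r i.1 ^ n :=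
    Finset.sum_nonneg fun i _ => pow_nonneg (hr i.1).le _
  have k6 : (1 + 1 / (P : ℝ)) ^ n * ∑ i : {i // i ≠ i₀}, r i.1 ^ n
      ≤ (1 + e / 4) * ((1 - e) * Δ) := by
    refine mul_le_mul hP (hsum.trans ?_) hσ0 (by linarith)
    exact mul_le_mul_of_nonneg_right (by linarith [min_le_left ε 1]) hΔ0
  have k7 : (2 * (n : ℝ) + P) * (μ * Δ) ≤ e / 4 * Δ := by
    have := mul_le_mul_of_nonneg_right hμ2 hΔ0
    linarith
  have k8 : (P : ℝ) * h ^ n ≤ P * (μ * Δ) := mul_le_mul_of_nonneg_left k5 (by positivity)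
  have k9 : (n : ℝ) * h * R ^ (n - 1) ≤ n * (μ * Δ) := by
    rw [mul_assoc]; exact mul_le_mul_of_nonneg_left k4 (by positivity)
  have k10 : 0 ≤ e / 2 * Δ + e * e / 4 * Δ := by positivity
  have k11 : 0 ≤ Δ - (1 + e / 4) * ((1 - e) * Δ) - e / 4 * Δ := by
    have : Δ - (1 + e / 4) * ((1 - e) * Δ) - e / 4 * Δ = e / 2 * Δ + e * e / 4 * Δ := by ring
    linarith
  linarith

end Vale.Agent.P209
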