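import Mathlib

namespace Vale.Agent.P209

open scoped ContDiff

/-- The standard symplectic form `∑ dx_j ∧ dy_j` on `ℂ^n = Fin n → ℂ`. -/
def omega0 {n : ℕ} (v w : Fin n → ℂ) : ℝ :=
  ∑ j, ((v j).re * (w j).im - (v j).im * (w j).re)

/-- The closed ball of capacity `R`. -/
def closedCapBall (n : ℕ) (R : ℝ) : Set (Fin n → ℂ) :=
  {z | Real.pi * ∑ j, ‖z j‖ ^ 2 ≤ R}

/-- The open ball of capacity `R`. -/
def openCapBall (n : ℕ) (R : ℝ) : Set (Fin n → ℂ) :=
  {z | Real.pi * ∑ j, ‖z j‖ ^ 2 < R}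

/-- `f` is a symplectic embedding of the closed ball of capacity `r`: on some open
neighbourhood of the ball it is smooth, injective, and pulls `omega0` back to `omega0`. -/
def IsSympBallEmbedding {n : ℕ} (f : (Fin n → ℂ) → (Fin n → ℂ)) (r : ℝ) : Prop :=
  ∃ U : Set (Fin n → ℂ), IsOpen U ∧ closedCapBall n r ⊆ U ∧
    ContDiffOn ℝ ∞ f U ∧ Set.InjOn f U ∧
    ∀ z ∈ U, ∀ v w, omega0 (fderiv ℝ f z v) (fderiv ℝ f z w) = omega0 v w

/-- The disjoint union of the closed balls of capacities `r i` embeds symplectically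
into the open ball of capacity `R`. -/
def SympBallPacking (n : ℕ) {k : ℕ} (r : Fin k → ℝ) (R : ℝ) : Prop :=
  ∃ f : Fin k → (Fin n → ℂ) → (Fin n → ℂ),
    (∀ i, IsSympBallEmbedding (f i) (r i) ∧
      f i '' closedCapBall n (r i) ⊆ openCapBall n R) ∧
    ∀ i j, i ≠ j → Disjoint (f i '' closedCapBall n (r i)) (f j '' closedCapBall n (r j))

end Vale.Agent.P209
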