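import Mathlib

/-! Explicit coordinates for an area preserving map of a disc into a rectangle. -/

namespace Vale.Agent.P209.Disc

open Real

/-- area form on `ℂ` -/
def w1 (v w : ℂ) : ℝ := v.re * w.im - v.im * w.re

theorem w1_linear (L : ℂ →L[ℝ] ℂ) (v w : ℂ) :
    w1 (L v) (L w) = w1 (L 1) (L Complex.I) * w1 v w := by
  have hv : v = v.re • (1 : ℂ) + v.im • Complex.I := by
    apply Complex.ext <;> simp
  have hw : w = w.re • (1 : ℂ) + w.im • Complex.I := by
    apply Complex.ext <;> simp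
  conv_lhs => rw [hv, hw]
  simp only [map_add, map_smul, w1, Complex.add_re, Complex.add_im, Complex.smul_re,
    Complex.smul_im, smul_eq_mul]
  ring

/-- `κ` -/
noncomputable def kap (δ η a b : ℝ) : ℝ := η + 2 * a * (a + δ) / ((a + δ) ^ 2 + b ^ 2)

noncomputable def xi (δ η a b : ℝ) : ℂ :=
  ⟨kap δ η a b * ((a ^ 2 - b ^ 2 - δ ^ 2) / (2 * a)), kap δ η a b * b⟩

noncomputable def jac (δ η a b : ℝ) : ℝ :=
  kap δ η a b * ((2 + η) * a ^ 2 + η * (b ^ 2 + δ ^ 2)) / (2 * a ^ 2)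

noncomputable def prim (δ η a b : ℝ) : ℝ :=
  ((η * (2 + η + η * δ ^ 2 / a ^ 2) + 2 * a * (a + δ) * (η / a ^ 2)) * b
    + η * (η / a ^ 2) * b ^ 3 / 3
    + 2 * a * ((2 + η + η * δ ^ 2 / a ^ 2) - η / a ^ 2 * (a + δ) ^ 2)
      * arctan (b / (a + δ))) / 2

variable {δ η a b : ℝ}

theorem kap_pos (hδ : 0 < δ) (hη : 0 < η) (ha : 0 < a) (b : ℝ) : 0 < kap δ η a b := by
  unfold kap
  positivity

theorem jac_pos (hδ : 0 < δ) (hη : 0 < η) (ha : 0 < a) (b : ℝ) : 0 < jac δ η a b := by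
  have := kap_pos hδ hη ha b
  unfold jac
  positivity

theorem hasDerivAt_prim (hδ : 0 < δ) (ha : 0 < a) (b : ℝ) :
    HasDerivAt (fun t => prim δ η a t) (jac δ η a b) b := by
  have hs : 0 < a + δ := by linarith
  have h1 : HasDerivAt (fun t : ℝ => arctan (t / (a + δ)))
      ((1 / (1 + (b / (a + δ)) ^ 2)) * (1 / (a + δ))) b :=
    ((hasDerivAt_id b).div_const (a + δ)).arctan
  have h2 := (hasDerivAt_id b).const_mul
    (η * (2 + η + η * δ ^ 2 / a ^ 2) + 2 * a * (a + δ) * (η / a ^ 2))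
  have h3 := (((hasDerivAt_id b).pow 3).const_mul (η * (η / a ^ 2))).div_const 3
  have h4 := h1.const_mul (2 * a * ((2 + η + η * δ ^ 2 / a ^ 2) - η / a ^ 2 * (a + δ) ^ 2))
  have h5 := ((h2.add h3).add h4).div_const 2
  have key := h5.congr_of_eventuallyEq (f₁ := fun t => prim δ η a t)
    (Filter.Eventually.of_forall fun t => by simp [prim])
  refine key.congr_deriv ?_
  unfold jac kap
  have h' : 0 < (a + δ) ^ 2 + b ^ 2 := by positivity
  simp only [id]
  field_simp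
  ring

theorem prim_strictMono (hδ : 0 < δ) (hη : 0 < η) (ha : 0 < a) :
    StrictMono (fun t => prim δ η a t) :=
  strictMono_of_hasDerivAt_pos (fun t => hasDerivAt_prim hδ ha t)
    (fun t => jac_pos hδ hη ha t)

theorem prim_zero : prim δ η a 0 = 0 := by simp [prim]

theorem prim_neg (t : ℝ) : prim δ η a (-t) = - prim δ η a t := by
  simp only [prim, neg_div, arctan_neg]
  ring

/-- the parabolic radius -/
noncomputable def rho (δ a b : ℝ) : ℝ := (a ^ 2 + b ^ 2 + δ ^ 2) / (2 * a)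
noncomputable def xw (δ a b : ℝ) : ℝ := (a ^ 2 - b ^ 2 - δ ^ 2) / (2 * a)

theorem rho_sq (ha : 0 < a) : rho δ a b ^ 2 = xw δ a b ^ 2 + b ^ 2 + δ ^ 2 := by
  unfold rho xw; field_simp; ring

theorem rho_add_xw (ha : 0 < a) : rho δ a b + xw δ a b = a := by
  unfold rho xw; field_simp; ring

theorem rho_pos (hδ : 0 < δ) (ha : 0 < a) : 0 < rho δ a b := by
  unfold rho; positivity

theorem kap_eq (hδ : 0 < δ) (ha : 0 < a) :
    kap δ η a b = 1 + η + xw δ a b / (rho δ a b + δ) := by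
  have h1 : (a + δ) ^ 2 + b ^ 2 = 2 * a * (rho δ a b + δ) := by
    unfold rho; field_simp; ring
  have h0 : 0 < rho δ a b + δ := by have := rho_pos (b := b) hδ ha; linarith
  rw [kap, h1]
  have hx : xw δ a b = a - rho δ a b := by linarith [rho_add_xw (δ := δ) (b := b) ha]
  rw [hx]
  field_simp
  ring

theorem xi_re (δ η a b : ℝ) : (xi δ η a b).re = kap δ η a b * xw δ a b := rfl
theorem xi_im (δ η a b : ℝ) : (xi δ η a b).im = kap δ η a b * b := rfl

/-- surjectivity -/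
theorem xi_surj (hδ : 0 < δ) (hη : 0 < η) (z : ℂ) :
    ∃ a b, 0 < a ∧ xi δ η a b = z := by
  set r2 := z.re ^ 2 + z.im ^ 2 with hr2
  let F : ℝ → ℝ := fun t => (1 + η) * t + z.re * t ^ 2 / (√(t ^ 2 * r2 + δ ^ 2) + δ)
  have hq : ∀ t : ℝ, 0 < √(t ^ 2 * r2 + δ ^ 2) + δ := fun t => by positivity
  have hF : Continuous F := by
    apply Continuous.add (by fun_prop)
    exact Continuous.div (by fun_prop) (by fun_prop) fun t => (hq t).ne'
  have hlow : ∀ t, 0 ≤ t → η * t ≤ F t := by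
    intro t ht
    have h2 : |z.re * t| ≤ √(t ^ 2 * r2 + δ ^ 2) + δ := by
      have : |z.re * t| ≤ √(t ^ 2 * r2 + δ ^ 2) := by
        apply abs_le_sqrt
        rw [hr2]; nlinarith [mul_nonneg (sq_nonneg t) (sq_nonneg z.im), sq_nonneg δ]
      linarith
    have h3 : -t ≤ z.re * t ^ 2 / (√(t ^ 2 * r2 + δ ^ 2) + δ) := by
      rw [le_div_iff₀ (hq t)]
      nlinarith [neg_abs_le (z.re * t)]
    show η * t ≤ (1 + η) * t + _
    linarith
  have h1 : (1 : ℝ) ∈ Set.Icc (F 0) (F (1 / η)) := by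
    constructor
    · simp [F]
    · calc (1 : ℝ) = η * (1 / η) := by field_simp
        _ ≤ _ := hlow _ (by positivity)
  obtain ⟨t, ht, htF⟩ := intermediate_value_Icc (by positivity) hF.continuousOn h1
  set ρ := √(t ^ 2 * r2 + δ ^ 2) with hρ
  have hρ2 : ρ ^ 2 = t ^ 2 * r2 + δ ^ 2 := sq_sqrt (by positivity)
  have hρ0 : 0 ≤ ρ := sqrt_nonneg _
  have ha : 0 < ρ + t * z.re := by
    nlinarith [sq_nonneg (t * z.im), pow_pos hδ 2, abs_nonneg (t * z.re)]
  have e1 : xw δ (ρ + t * z.re) (t * z.im) = t * z.re := by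
    unfold xw; field_simp; rw [hr2] at hρ2; nlinarith [hρ2]
  have e2 : rho δ (ρ + t * z.re) (t * z.im) = ρ := by
    have := rho_add_xw (δ := δ) (b := t * z.im) ha
    linarith
  refine ⟨ρ + t * z.re, t * z.im, ha, ?_⟩
  have hk : kap δ η (ρ + t * z.re) (t * z.im) * t = 1 := by
    rw [kap_eq hδ ha, e1, e2]
    have := htF
    simp only [F] at this
    rw [← hρ] at this
    field_simp at this ⊢
    linarith
  apply Complex.ext
  · rw [xi_re, e1, ← mul_assoc, hk, one_mul]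
  · rw [xi_im, ← mul_assoc, hk, one_mul]

/-- injectivity -/
theorem xi_inj (hδ : 0 < δ) (hη : 0 < η) {a b a' b' : ℝ} (ha : 0 < a) (ha' : 0 < a')
    (h : xi δ η a b = xi δ η a' b') : a = a' ∧ b = b' := by
  have h1 := congrArg Complex.re h
  have h2 := congrArg Complex.im h
  simp only [xi_re, xi_im] at h1 h2
  have hk := kap_pos hδ hη ha b
  have hk' := kap_pos hδ hη ha' b'
  set t := kap δ η a b / kap δ η a' b' with ht
  have ht0 : 0 < t := by positivity
  have hx' : xw δ a' b' = t * xw δ a b := by rw [ht]; field_simp; linarith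
  have hb' : b' = t * b := by rw [ht]; field_simp; linarith
  have hkt : kap δ η a b = t * kap δ η a' b' := by rw [ht]; field_simp
  have hr := rho_sq (δ := δ) (b := b) ha
  have hr' := rho_sq (δ := δ) (b := b') ha'
  have hp := rho_pos (b := b) hδ ha
  have hp' := rho_pos (b := b') hδ ha'
  replace hr' : rho δ a' b' ^ 2 = (t * xw δ a b) ^ 2 + (t * b) ^ 2 + δ ^ 2 := by
    rw [hr', hx', ← hb']
  rw [kap_eq hδ ha, kap_eq hδ ha', hx'] at hkt
  set x := xw δ a b
  set ρ := rho δ a b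
  set ρ' := rho δ a' b'
  have key : t = 1 ∨ (x = 0 ∧ b = 0) := by
    by_contra hc
    push Not at hc
    obtain ⟨hc1, hc2⟩ := hc
    have hr2 : 0 < x ^ 2 + b ^ 2 := by
      rcases eq_or_ne x 0 with hx | hx
      · have := hc2 hx; positivity
      · positivity
    have e : (x ^ 2 + b ^ 2) * ((1 + η) * (t - 1)) + x * (ρ' - ρ) = 0 := by
      have i1 : t ^ 2 * (x ^ 2 + b ^ 2) / (ρ' + δ) = ρ' - δ := by
        field_simp; linear_combination (1 : ℝ) * (-hr')
      have i2 : (x ^ 2 + b ^ 2) / (ρ + δ) = ρ - δ := by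
        field_simp; linear_combination (1 : ℝ) * (-hr)
      have : ρ' - ρ = t ^ 2 * (x ^ 2 + b ^ 2) / (ρ' + δ) - (x ^ 2 + b ^ 2) / (ρ + δ) := by
        rw [i1, i2]; ring
      rw [this]
      linear_combination (x ^ 2 + b ^ 2) * (-hkt)
    have e2 : (t - 1) * (x ^ 2 + b ^ 2) * ((1 + η) * (ρ' + ρ) + x * (t + 1)) = 0 := by
      linear_combination (ρ' + ρ) * e - x * hr' + x * hr
    have s1 : |x| ≤ ρ := abs_le_of_sq_le_sq (by nlinarith) hp.le
    have s2 : |t * x| ≤ ρ' := abs_le_of_sq_le_sq (by nlinarith) hp'.le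
    have s3 : 0 < (1 + η) * (ρ' + ρ) + x * (t + 1) := by
      nlinarith [neg_abs_le x, neg_abs_le (t * x), mul_pos hη hp, mul_pos hη hp']
    rcases mul_eq_zero.1 e2 with h | h
    · rcases mul_eq_zero.1 h with h | h
      · exact hc1 (by linarith)
      · linarith
    · linarith
  have hxx : xw δ a' b' = x ∧ b' = b := by
    rcases key with h | ⟨h, h'⟩
    · rw [h, one_mul] at hx' hb'; exact ⟨hx', hb'⟩
    · rw [h, mul_zero] at hx'; rw [h', mul_zero] at hb'; exact ⟨by rw [hx', h], by rw [hb', h']⟩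
  have hρρ : ρ' = ρ := by
    have : ρ' ^ 2 = ρ ^ 2 := by
      rw [hr', hr, ← hx', ← hb', hxx.1, hxx.2]
    exact (sq_eq_sq₀ hp'.le hp.le).1 this
  refine ⟨?_, hxx.2.symm⟩
  rw [← rho_add_xw (δ := δ) (b := b) ha, ← rho_add_xw (δ := δ) (b := b') ha']
  linarith [hxx.1]

theorem bounds (hδ : 0 < δ) (hη : 0 < η) (hη1 : η ≤ 1) {L : ℝ} (hδL : 3 * δ ≤ L)
    (ha : 0 < a) (hz : ‖xi δ η a b‖ < L) :
    a ≤ ‖xi δ η a b‖ + 3 * δ ∧ η * (b ^ 2 + δ ^ 2) ≤ 4 * a * L := by
  have hk := kap_pos hδ hη ha b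
  have hρ := rho_pos (b := b) hδ ha
  have hρ2 := rho_sq (δ := δ) (b := b) ha
  have hsum := rho_add_xw (δ := δ) (b := b) ha
  set x := xw δ a b with hx
  set ρ := rho δ a b with hρd
  set r := √(x ^ 2 + b ^ 2) with hr
  have hr0 : 0 ≤ r := sqrt_nonneg _
  have hr2 : r ^ 2 = x ^ 2 + b ^ 2 := sq_sqrt (by positivity)
  have hnorm : ‖xi δ η a b‖ = kap δ η a b * r := by
    rw [Complex.norm_def, Complex.normSq_apply, xi_re, xi_im, ← hx, hr]
    rw [show kap δ η a b * x * (kap δ η a b * x) + kap δ η a b * b * (kap δ η a b * b)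
      = kap δ η a b ^ 2 * (x ^ 2 + b ^ 2) by ring, sqrt_mul (sq_nonneg _), sqrt_sq hk.le]
  have hxr : |x| ≤ r := abs_le_sqrt (by nlinarith)
  have hρr : ρ ≤ r + δ := by nlinarith
  have hrρ : r ≤ ρ := by nlinarith
  have hA : a ≤ ‖xi δ η a b‖ + 3 * δ := by
    rw [hnorm, kap_eq hδ ha, ← hx, ← hρd]
    have h1 : x - x / (ρ + δ) * r ≤ 2 * δ := by
      have : x - x / (ρ + δ) * r = x / (ρ + δ) * (ρ + δ - r) := by field_simp
      rw [this]
      have h2 : x / (ρ + δ) ≤ 1 := by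
        rw [div_le_one (by linarith)]
        linarith [le_abs_self x]
      nlinarith
    nlinarith
  refine ⟨hA, ?_⟩
  have hklow : η ≤ kap δ η a b := by
    have : 0 ≤ 2 * a * (a + δ) / ((a + δ) ^ 2 + b ^ 2) := by positivity
    unfold kap; linarith
  have h1 : -x * η ≤ L := by
    have : η * r ≤ L := by rw [hnorm] at hz; nlinarith
    nlinarith [neg_abs_le x]
  have h2 : -x * (2 * a) = b ^ 2 + δ ^ 2 - a ^ 2 := by
    rw [hx]; unfold xw; field_simp; ring
  have h3 : a ≤ 2 * L := by linarith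
  nlinarith

end Vale.Agent.P209.Disc
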