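import Mathlib
import Vale.Agent.P209.DiscBasic

/-! An area preserving map of a disc into a rectangle, nested up to `ε`
(Traynor's lemma). -/

namespace Vale.Agent.P209.Disc

open Real
open scoped ContDiff Topology

noncomputable def Xi (δ η : ℝ) (p : ℂ) : ℂ := xi δ η p.re p.im

variable {δ η : ℝ}

theorem contDiffAt_Xi (hδ : 0 < δ) {p : ℂ} (hp : 0 < p.re) :
    ContDiffAt ℝ ∞ (Xi δ η) p := by
  have hre : ContDiffAt ℝ ∞ (fun q : ℂ => q.re) p := Complex.reCLM.contDiff.contDiffAt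
  have him : ContDiffAt ℝ ∞ (fun q : ℂ => q.im) p := Complex.imCLM.contDiff.contDiffAt
  have hk : ContDiffAt ℝ ∞ (fun q : ℂ => kap δ η q.re q.im) p := by
    unfold kap
    refine contDiffAt_const.add (ContDiffAt.div (by fun_prop) (by fun_prop) ?_)
    have : 0 < (p.re + δ) ^ 2 + p.im ^ 2 := by positivity
    exact this.ne'
  have hx : ContDiffAt ℝ ∞ (fun q : ℂ => (q.re ^ 2 - q.im ^ 2 - δ ^ 2) / (2 * q.re)) p :=
    ContDiffAt.div (by fun_prop) (by fun_prop) (by simpa using hp.ne')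
  have : Xi δ η = fun q : ℂ =>
      Complex.equivRealProdCLM.symm
        (kap δ η q.re q.im * ((q.re ^ 2 - q.im ^ 2 - δ ^ 2) / (2 * q.re)),
          kap δ η q.re q.im * q.im) := by
    funext q
    apply Complex.ext <;> simp [Xi, xi]
  rw [this]
  exact Complex.equivRealProdCLM.symm.contDiff.contDiffAt.comp p
    (ContDiffAt.prodMk (hk.mul hx) (hk.mul him))

theorem w1_fderiv {F : ℂ → ℂ} {p : ℂ} (hF : DifferentiableAt ℝ F p) {u1 u2 v1 v2 : ℝ}
    (h11 : HasDerivAt (fun t : ℝ => (F ⟨t, p.im⟩).re) u1 p.re)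
    (h12 : HasDerivAt (fun t : ℝ => (F ⟨t, p.im⟩).im) u2 p.re)
    (h21 : HasDerivAt (fun t : ℝ => (F ⟨p.re, t⟩).re) v1 p.im)
    (h22 : HasDerivAt (fun t : ℝ => (F ⟨p.re, t⟩).im) v2 p.im) (v w : ℂ) :
    w1 (fderiv ℝ F p v) (fderiv ℝ F p w) = (u1 * v2 - u2 * v1) * w1 v w := by
  have la : HasDerivAt (fun t : ℝ => (⟨t, p.im⟩ : ℂ)) 1 p.re := by
    have : (fun t : ℝ => (⟨t, p.im⟩ : ℂ)) = fun t : ℝ => t • (1 : ℂ) + ⟨0, p.im⟩ := by
      funext t; apply Complex.ext <;> simp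
    rw [this]
    simpa using ((hasDerivAt_id p.re).smul_const (1 : ℂ)).add_const (⟨0, p.im⟩ : ℂ)
  have lb : HasDerivAt (fun t : ℝ => (⟨p.re, t⟩ : ℂ)) Complex.I p.im := by
    have : (fun t : ℝ => (⟨p.re, t⟩ : ℂ)) = fun t : ℝ => t • Complex.I + ⟨p.re, 0⟩ := by
      funext t; apply Complex.ext <;> simp
    rw [this]
    simpa using ((hasDerivAt_id p.im).smul_const Complex.I).add_const (⟨p.re, 0⟩ : ℂ)
  have h := hF.hasFDerivAt
  have ca := HasFDerivAt.comp_hasDerivAt p.re (by simpa using h) la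
  have cb := HasFDerivAt.comp_hasDerivAt p.im (by simpa using h) lb
  have e11 := (Complex.reCLM.hasFDerivAt.comp_hasDerivAt p.re ca).unique h11
  have e12 := (Complex.imCLM.hasFDerivAt.comp_hasDerivAt p.re ca).unique h12
  have e21 := (Complex.reCLM.hasFDerivAt.comp_hasDerivAt p.im cb).unique h21
  have e22 := (Complex.imCLM.hasFDerivAt.comp_hasDerivAt p.im cb).unique h22
  rw [w1_linear]
  simp only [Complex.reCLM_apply, Complex.imCLM_apply] at e11 e12 e21 e22
  simp only [w1, e11, e12, e21, e22]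

theorem w1_Xi (hδ : 0 < δ) {p : ℂ} (hp : 0 < p.re) (v w : ℂ) :
    w1 (fderiv ℝ (Xi δ η) p v) (fderiv ℝ (Xi δ η) p w) = jac δ η p.re p.im * w1 v w := by
  set a := p.re with ha
  set b := p.im with hb
  have hN : (a + δ) ^ 2 + b ^ 2 ≠ 0 := by positivity
  have h2a : 2 * a ≠ 0 := by positivity
  have hid := hasDerivAt_id a
  have hka : HasDerivAt (fun t => kap δ η t b)
      (((2 * (a + δ) + 2 * a) * ((a + δ) ^ 2 + b ^ 2) - 2 * a * (a + δ) * (2 * (a + δ)))
        / ((a + δ) ^ 2 + b ^ 2) ^ 2) a := by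
    have := (((hid.const_mul 2).mul (hid.add_const δ)).div
      (((hid.add_const δ).pow 2).add_const (b ^ 2)) hN).const_add η
    refine (this.congr_of_eventuallyEq (Filter.Eventually.of_forall fun t => ?_)).congr_deriv ?_
    · simp [kap]
    · simp only [id, Pi.mul_apply, Pi.pow_apply]; ring
  have hxa : HasDerivAt (fun t => (t ^ 2 - b ^ 2 - δ ^ 2) / (2 * t))
      ((2 * a * (2 * a) - (a ^ 2 - b ^ 2 - δ ^ 2) * 2) / (2 * a) ^ 2) a := by
    have := ((((hid.pow 2).sub_const (b ^ 2)).sub_const (δ ^ 2)).div (hid.const_mul 2) h2a)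
    refine (this.congr_of_eventuallyEq (Filter.Eventually.of_forall fun t => ?_)).congr_deriv ?_
    · simp
    · simp only [id, Pi.pow_apply]; ring
  have hidb := hasDerivAt_id b
  have hkb : HasDerivAt (fun t => kap δ η a t)
      (-(2 * a * (a + δ) * (2 * b)) / ((a + δ) ^ 2 + b ^ 2) ^ 2) b := by
    have := ((hasDerivAt_const b (2 * a * (a + δ))).div
      ((hidb.pow 2).const_add ((a + δ) ^ 2)) hN).const_add η
    refine (this.congr_of_eventuallyEq (Filter.Eventually.of_forall fun t => ?_)).congr_deriv ?_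
    · simp [kap]
    · simp only [id, Pi.pow_apply]; ring
  have hxb : HasDerivAt (fun t => (a ^ 2 - t ^ 2 - δ ^ 2) / (2 * a)) (-(2 * b) / (2 * a)) b := by
    have := (((hidb.pow 2).const_sub (a ^ 2)).sub_const (δ ^ 2)).div_const (2 * a)
    refine (this.congr_of_eventuallyEq (Filter.Eventually.of_forall fun t => ?_)).congr_deriv ?_
    · simp
    · simp only [id]; ring
  rw [w1_fderiv ((contDiffAt_Xi hδ hp).differentiableAt (by simp))
    (u1 := _) (u2 := _) (v1 := _) (v2 := _) (hka.mul hxa) (hka.mul_const b) (hkb.mul hxb)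
    (hkb.mul hidb)]
  congr 1
  simp only [jac, kap, id, ← ha, ← hb]
  field_simp
  ring

/-! ### the second factor -/

noncomputable def Mc (K a : ℝ) : ℝ := √(K * a)
noncomputable def gd (δ η K a : ℝ) : ℝ := 2 * prim δ η a (Mc K a)
noncomputable def GG (δ η K a0 c0 a : ℝ) : ℝ := c0 + ∫ t in a0..a, gd δ η K t
noncomputable def TT (δ η K a0 c0 : ℝ) (p : ℂ) : ℂ :=
  ⟨GG δ η K a0 c0 p.re,
    (prim δ η p.re p.im + prim δ η p.re (Mc K p.re)) / gd δ η K p.re⟩

variable {K a0 c0 : ℝ}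

theorem gd_pos (hδ : 0 < δ) (hη : 0 < η) (hK : 0 < K) {a : ℝ} (ha : 0 < a) :
    0 < gd δ η K a := by
  have hM : 0 < Mc K a := sqrt_pos.2 (mul_pos hK ha)
  have := prim_strictMono hδ hη ha hM
  simp only [prim_zero] at this
  unfold gd; linarith

theorem contDiffAt_prim {E : Type*} [NormedAddCommGroup E] [NormedSpace ℝ E] (hδ : 0 < δ)
    {f g : E → ℝ} {x : E} (hf : ContDiffAt ℝ ∞ f x) (hg : ContDiffAt ℝ ∞ g x)
    (hfx : 0 < f x) :
    ContDiffAt ℝ ∞ (fun y => prim δ η (f y) (g y)) x := by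
  have h2 : (f x) ^ 2 ≠ 0 := by positivity
  have hs : f x + δ ≠ 0 := by positivity
  have hat : ContDiffAt ℝ ∞ (fun y => arctan (g y / (f y + δ))) x :=
    (Real.contDiff_arctan.contDiffAt).comp x (hg.div (hf.add contDiffAt_const) hs)
  have h1 : ContDiffAt ℝ ∞ (fun y => η * δ ^ 2 / (f y) ^ 2) x :=
    contDiffAt_const.div (hf.pow 2) h2
  have h3 : ContDiffAt ℝ ∞ (fun y => η / (f y) ^ 2) x :=
    contDiffAt_const.div (hf.pow 2) h2
  unfold prim
  fun_prop

theorem contDiffAt_gd (hδ : 0 < δ) (hK : 0 < K) {a : ℝ} (ha : 0 < a) :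
    ContDiffAt ℝ ∞ (gd δ η K) a := by
  have hM : ContDiffAt ℝ ∞ (Mc K) a :=
    ContDiffAt.sqrt (by fun_prop) (mul_pos hK ha).ne'
  exact contDiffAt_const.mul (contDiffAt_prim hδ contDiffAt_id hM ha)

theorem continuousOn_gd (hδ : 0 < δ) (hK : 0 < K) :
    ContinuousOn (gd δ η K) (Set.Ioi 0) :=
  fun _ ha => (contDiffAt_gd hδ hK ha).continuousAt.continuousWithinAt

theorem hasDerivAt_GG (hδ : 0 < δ) (hK : 0 < K) (ha0 : 0 < a0) {a : ℝ} (ha : 0 < a) :
    HasDerivAt (GG δ η K a0 c0) (gd δ η K a) a := by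
  have hc := continuousOn_gd (η := η) hδ hK
  have hsub : Set.uIcc a0 a ⊆ Set.Ioi 0 := fun t ht => by
    rcases Set.mem_uIcc.1 ht with h | h <;> simp only [Set.mem_Ioi] <;> linarith
  exact (intervalIntegral.integral_hasDerivAt_right (hc.mono hsub).intervalIntegrable
    (hc.stronglyMeasurableAtFilter isOpen_Ioi a ha)
    (hc.continuousAt (Ioi_mem_nhds ha))).const_add c0

theorem contDiffAt_GG (hδ : 0 < δ) (hK : 0 < K) (ha0 : 0 < a0) {a : ℝ} (ha : 0 < a) :
    ContDiffAt ℝ ∞ (GG δ η K a0 c0) a := by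
  have : ContDiffOn ℝ ∞ (GG δ η K a0 c0) (Set.Ioi 0) := by
    rw [contDiffOn_infty_iff_deriv_of_isOpen isOpen_Ioi]
    refine ⟨fun t ht => (hasDerivAt_GG hδ hK ha0 ht).differentiableAt.differentiableWithinAt, ?_⟩
    exact ContDiffOn.congr (fun t ht => (contDiffAt_gd hδ hK ht).contDiffWithinAt)
      (fun t ht => (hasDerivAt_GG hδ hK ha0 ht).deriv)
  exact this.contDiffAt (Ioi_mem_nhds ha)

theorem contDiffAt_TT (hδ : 0 < δ) (hη : 0 < η) (hK : 0 < K) (ha0 : 0 < a0) {p : ℂ}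
    (hp : 0 < p.re) : ContDiffAt ℝ ∞ (TT δ η K a0 c0) p := by
  have hre : ContDiffAt ℝ ∞ (fun q : ℂ => q.re) p := Complex.reCLM.contDiff.contDiffAt
  have him : ContDiffAt ℝ ∞ (fun q : ℂ => q.im) p := Complex.imCLM.contDiff.contDiffAt
  have h1 := (contDiffAt_GG (η := η) (c0 := c0) hδ hK ha0 hp).comp p hre
  have hg := (contDiffAt_gd (η := η) hδ hK hp).comp p hre
  have hM : ContDiffAt ℝ ∞ (fun q : ℂ => Mc K q.re) p :=
    (ContDiffAt.sqrt (by fun_prop) (mul_pos hK hp).ne')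
  have h2 : ContDiffAt ℝ ∞ (fun q : ℂ =>
      (prim δ η q.re q.im + prim δ η q.re (Mc K q.re)) / gd δ η K q.re) p :=
    ((contDiffAt_prim hδ hre him hp).add (contDiffAt_prim hδ hre hM hp)).div hg
      (gd_pos hδ hη hK hp).ne'
  have : TT δ η K a0 c0 = fun q : ℂ => Complex.equivRealProdCLM.symm
      (GG δ η K a0 c0 q.re,
        (prim δ η q.re q.im + prim δ η q.re (Mc K q.re)) / gd δ η K q.re) := by
    funext q
    apply Complex.ext <;> simp [TT]
  rw [this]
  exact Complex.equivRealProdCLM.symm.contDiff.contDiffAt.comp p (ContDiffAt.prodMk h1 h2)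

theorem w1_TT (hδ : 0 < δ) (hη : 0 < η) (hK : 0 < K) (ha0 : 0 < a0) {p : ℂ} (hp : 0 < p.re)
    (v w : ℂ) :
    w1 (fderiv ℝ (TT δ η K a0 c0) p v) (fderiv ℝ (TT δ η K a0 c0) p w)
      = jac δ η p.re p.im * w1 v w := by
  have hd : DifferentiableAt ℝ (fun t : ℝ =>
      (prim δ η t p.im + prim δ η t (Mc K t)) / gd δ η K t) p.re := by
    have hM : ContDiffAt ℝ ∞ (Mc K) p.re :=
      ContDiffAt.sqrt (by fun_prop) (mul_pos hK hp).ne'
    exact (((contDiffAt_prim hδ contDiffAt_id contDiffAt_const hp).add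
      (contDiffAt_prim hδ contDiffAt_id hM hp)).div (contDiffAt_gd hδ hK hp)
      (gd_pos hδ hη hK hp).ne').differentiableAt (by simp)
  rw [w1_fderiv ((contDiffAt_TT hδ hη hK ha0 hp).differentiableAt (by simp))
    (u1 := gd δ η K p.re) (u2 := _) (v1 := 0)
    (v2 := jac δ η p.re p.im / gd δ η K p.re)
    (hasDerivAt_GG hδ hK ha0 hp) hd.hasDerivAt
    (hasDerivAt_const p.im (GG δ η K a0 c0 p.re))
    (((hasDerivAt_prim (η := η) hδ hp p.im).add_const (prim δ η p.re (Mc K p.re))).div_const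
      (gd δ η K p.re))]
  have := (gd_pos (K := K) hδ hη hK hp).ne'
  field_simp
  ring

theorem gd_le (hδ : 0 < δ) (hη : 0 < η) (hη1 : η ≤ 1) {L : ℝ} (hδL : 3 * δ ≤ L) {a : ℝ}
    (ha : a ∈ Set.Ioc (η * δ ^ 2 / (8 * L)) (2 * L)) :
    gd δ η (5 * L / η) a ≤ (2 + η) * π * a + 22 * L * √(5 * L) * √η / √a := by
  obtain ⟨ha1, ha2⟩ := ha
  have hL : 0 < L := by linarith
  have hapos : 0 < a := lt_trans (by positivity) ha1
  set M := Mc (5 * L / η) a with hMd
  have hM0 : 0 ≤ M := sqrt_nonneg _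
  have hM2 : M ^ 2 = 5 * L / η * a := sq_sqrt (by positivity)
  have hMval : M = √(5 * L) * √a / √η := by
    rw [hMd]; unfold Mc
    rw [sqrt_mul (by positivity), sqrt_div (by positivity)]
    ring
  have hb : η * δ ^ 2 ≤ 8 * L * a := by
    rw [div_lt_iff₀ (by positivity)] at ha1; linarith
  set c := 2 + η + η * δ ^ 2 / a ^ 2
  set e := η / a ^ 2
  have h1 : η * c + 2 * a * (a + δ) * e + η * e * M ^ 2 / 3 ≤ 22 * η * L / a := by
    have i1 : η * c + 2 * a * (a + δ) * e + η * e * M ^ 2 / 3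
        = η * (2 + η + η * δ ^ 2 / a ^ 2 + 2 * (a + δ) / a + 5 * L / (3 * a)) := by
      rw [hM2]; simp only [c, e]; field_simp
    rw [i1]
    have i2 : η * δ ^ 2 / a ^ 2 ≤ 8 * L / a := by
      rw [div_le_div_iff₀ (by positivity) hapos]; nlinarith
    have i3 : 2 + η + η * δ ^ 2 / a ^ 2 + 2 * (a + δ) / a + 5 * L / (3 * a) ≤ 22 * L / a := by
      have : 2 + η + 2 * (a + δ) / a + 5 * L / (3 * a) ≤ 14 * L / a := by
        rw [le_div_iff₀ hapos]; field_simp; nlinarith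
      have : 22 * L / a = 14 * L / a + 8 * L / a := by ring
      linarith
    calc η * _ ≤ η * (22 * L / a) := mul_le_mul_of_nonneg_left i3 hη.le
      _ = _ := by ring
  have h2 : c - e * (a + δ) ^ 2 ≤ 2 + η := by
    have : c - e * (a + δ) ^ 2 = 2 + η + η * (δ ^ 2 - (a + δ) ^ 2) / a ^ 2 := by
      simp only [c, e]; ring
    rw [this]
    have : η * (δ ^ 2 - (a + δ) ^ 2) / a ^ 2 ≤ 0 :=
      div_nonpos_of_nonpos_of_nonneg
        (mul_nonpos_of_nonneg_of_nonpos hη.le (by nlinarith)) (by positivity)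
    linarith
  have h3 : 0 ≤ arctan (M / (a + δ)) := arctan_nonneg.2 (by positivity)
  have h4 : arctan (M / (a + δ)) ≤ π / 2 := (arctan_lt_pi_div_two _).le
  have h5 : (c - e * (a + δ) ^ 2) * arctan (M / (a + δ)) ≤ (2 + η) * (π / 2) :=
    le_trans (mul_le_mul_of_nonneg_right h2 h3) (mul_le_mul_of_nonneg_left h4 (by linarith))
  have h6 : gd δ η (5 * L / η) a = (η * c + 2 * a * (a + δ) * e + η * e * M ^ 2 / 3) * M
      + 2 * a * ((c - e * (a + δ) ^ 2) * arctan (M / (a + δ))) := by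
    simp only [gd, prim, ← hMd, c, e]; ring
  rw [h6]
  have h7 : (η * c + 2 * a * (a + δ) * e + η * e * M ^ 2 / 3) * M
      ≤ 22 * L * √(5 * L) * √η / √a := by
    refine le_trans (mul_le_mul_of_nonneg_right h1 hM0) (le_of_eq ?_)
    rw [hMval]
    have e1 := mul_self_sqrt hη.le
    have e2 := mul_self_sqrt hapos.le
    field_simp
    rw [sq_sqrt hapos.le, sq_sqrt hη.le]
    ring
  nlinarith

theorem final_bound {L δ η C K' ε c0 a r G : ℝ} (hL : 0 < L) (hδ : 0 < δ)
    (hδL : 3 * δ ≤ L) (hη : 0 < η) (hηsq : η ≤ √η) (hC : 0 ≤ C)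
    (hK' : K' = 2 * π * L ^ 2 + 2 * C * √(2 * L) + 1)
    (hδε : 15 * π * L * δ ≤ ε / 4) (hηε : K' * √η ≤ ε / 4) (hc0 : c0 = ε / 4) (hε : 0 < ε)
    (ha : 0 ≤ a) (ha' : a ≤ r + 3 * δ) (hr : 0 ≤ r) (hrL : r ≤ L)
    (hG : G ≤ c0 + (1 + η / 2) * π * a ^ 2 + 2 * C * √η * √a) :
    G < π * r ^ 2 + ε := by
  have ha2 : a ≤ 2 * L := by linarith
  have hq : π * a ^ 2 ≤ π * r ^ 2 + 15 * π * L * δ := by
    have e1 : a ^ 2 ≤ (r + 3 * δ) ^ 2 := pow_le_pow_left₀ ha ha' 2
    have e2 : δ * r ≤ δ * L := mul_le_mul_of_nonneg_left hrL hδ.le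
    have e3 : δ * (3 * δ) ≤ δ * L := mul_le_mul_of_nonneg_left hδL hδ.le
    have e5 : 0 ≤ δ * L := (mul_pos hδ hL).le
    have e4 : a ^ 2 ≤ r ^ 2 + 15 * L * δ := by linarith
    have := mul_le_mul_of_nonneg_left e4 pi_pos.le
    linarith
  have h1 : η / 2 * π * a ^ 2 ≤ 2 * π * L ^ 2 * √η := by
    have : a ^ 2 ≤ (2 * L) ^ 2 := pow_le_pow_left₀ ha ha2 2
    calc η / 2 * π * a ^ 2 ≤ √η / 2 * π * (2 * L) ^ 2 := by gcongr
      _ = _ := by ring
  have h2 : 2 * C * √η * √a ≤ 2 * C * √(2 * L) * √η := by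
    calc 2 * C * √η * √a ≤ 2 * C * √η * √(2 * L) := by gcongr
      _ = _ := by ring
  have h3 := sqrt_nonneg η
  rw [hK'] at hηε
  linarith

/-- Traynor's lemma: an area preserving map of a disc into the rectangle, nested up to `ε`. -/
theorem disc_map (R : ℝ) (hR : 0 ≤ R) {ε : ℝ} (hε : 0 < ε) :
    ∃ (U : Set ℂ) (φ : ℂ → ℂ), IsOpen U ∧ {z : ℂ | ‖z‖ ≤ R} ⊆ U ∧ ContDiffOn ℝ ∞ φ U ∧
      Set.InjOn φ U ∧
      (∀ z ∈ U, ∀ v w, w1 (fderiv ℝ φ z v) (fderiv ℝ φ z w) = w1 v w) ∧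
      ∀ z ∈ U, 0 < (φ z).re ∧ (φ z).re < π * ‖z‖ ^ 2 + ε ∧ 0 < (φ z).im ∧ (φ z).im < 1 := by
  classical
  set L := R + 1 with hLd
  have hL : 0 < L := by linarith
  set δ := min (L / 3) (ε / (60 * π * L)) with hδd
  have hδ : 0 < δ := lt_min (by positivity) (by positivity)
  have hδL : 3 * δ ≤ L := by have := min_le_left (L / 3) (ε / (60 * π * L)); linarith
  have hδε : 15 * π * L * δ ≤ ε / 4 := by
    have := min_le_right (L / 3) (ε / (60 * π * L))
    rw [← hδd, le_div_iff₀ (by positivity)] at this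
    linarith
  set C := 22 * L * √(5 * L) with hCd
  have hC : 0 ≤ C := by positivity
  set K' := 2 * π * L ^ 2 + 2 * C * √(2 * L) + 1 with hK'd
  have hK' : 0 < K' := by positivity
  set η := (min 1 (ε / (4 * K'))) ^ 2 with hηd
  have hmin : 0 < min 1 (ε / (4 * K')) := lt_min one_pos (by positivity)
  have hη : 0 < η := by positivity
  have hsη : √η = min 1 (ε / (4 * K')) := sqrt_sq hmin.le
  have hη1 : η ≤ 1 := by
    rw [hηd]; exact pow_le_one₀ hmin.le (min_le_left _ _)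
  have hηsq : η ≤ √η := le_sqrt_of_sq_le (by nlinarith)
  have hηε : K' * √η ≤ ε / 4 := by
    have : √η ≤ ε / (4 * K') := by rw [hsη]; exact min_le_right _ _
    rw [le_div_iff₀ (by positivity)] at this
    linarith
  set K := 5 * L / η with hKd
  have hK : 0 < K := by positivity
  set a0 := η * δ ^ 2 / (8 * L) with ha0d
  have ha0 : 0 < a0 := by positivity
  set c0 := ε / 4 with hc0d
  let D : Set ℂ := {p | a0 < p.re ∧ p.im ^ 2 < K * p.re}
  have hD : IsOpen D := (isOpen_lt continuous_const Complex.continuous_re).inter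
    (isOpen_lt (Complex.continuous_im.pow 2) (continuous_const.mul Complex.continuous_re))
  have hDpos : ∀ p ∈ D, 0 < p.re := fun p hp => ha0.trans hp.1
  have hinj : Set.InjOn (Xi δ η) D := fun p hp q hq h => by
    obtain ⟨h1, h2⟩ := xi_inj hδ hη (hDpos p hp) (hDpos q hq) h
    exact Complex.ext h1 h2
  let inv : ℂ → ℂ := Function.invFunOn (Xi δ η) D
  have hloc : ∀ p ∈ D, ∀ᶠ y in 𝓝 (Xi δ η p), y ∈ Xi δ η '' D ∧
      ∃ σ : ℂ → ℂ, ContDiffAt ℝ ∞ σ y ∧ inv =ᶠ[𝓝 y] σ := by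
    intro p hp
    have hcd := contDiffAt_Xi (η := η) hδ (hDpos p hp)
    set Lm := fderiv ℝ (Xi δ η) p with hLm
    have hj := jac_pos hδ hη (hDpos p hp) p.im
    have hinjL : Function.Injective Lm := by
      intro v v' hv
      have key : ∀ w, w1 (v - v') w = 0 := fun w => by
        have h1 := w1_Xi (η := η) hδ (hDpos p hp) (v - v') w
        rw [← hLm, map_sub, hv, sub_self] at h1
        have : w1 (0 : ℂ) (Lm w) = 0 := by simp [w1]
        rw [this] at h1
        exact (mul_eq_zero.1 h1.symm).resolve_left hj.ne'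
      have k1 := key 1
      have k2 := key Complex.I
      simp [w1] at k1 k2
      exact Complex.ext (by linarith) (by linarith)
    let e : ℂ ≃L[ℝ] ℂ :=
      (LinearEquiv.ofInjectiveEndo (Lm : ℂ →ₗ[ℝ] ℂ) hinjL).toContinuousLinearEquiv
    have he : (e : ℂ →L[ℝ] ℂ) = Lm := by ext1 x; rfl
    have hf : HasFDerivAt (Xi δ η) (e : ℂ →L[ℝ] ℂ) p :=
      he ▸ (hcd.differentiableAt (by simp)).hasFDerivAt
    set H := hcd.toOpenPartialHomeomorph (Xi δ η) hf (by simp)
    have hps : p ∈ H.source := hcd.mem_toOpenPartialHomeomorph_source hf (by simp)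
    have hH : ⇑H = Xi δ η := hcd.toOpenPartialHomeomorph_coe hf (by simp)
    have hyt : Xi δ η p ∈ H.target := by rw [← hH]; exact H.map_source hps
    have hsymm : H.symm (Xi δ η p) = p := by rw [← hH]; exact H.left_inv hps
    have hev : ∀ᶠ y in 𝓝 (Xi δ η p), y ∈ H.target ∧ H.symm y ∈ D := by
      refine (H.open_target.eventually_mem hyt).and ?_
      exact (H.continuousAt_symm hyt).eventually (hD.eventually_mem (by rw [hsymm]; exact hp))
    filter_upwards [hev.eventually_nhds] with y hy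
    obtain ⟨hy1, hy2⟩ := hy.self_of_nhds
    have hright : Xi δ η (H.symm y) = y := by
      have := H.right_inv hy1
      rwa [hH] at this
    refine ⟨⟨_, hy2, hright⟩, H.symm, ?_, ?_⟩
    · have hcd' := contDiffAt_Xi (η := η) hδ (hDpos _ hy2)
      set Lm' := fderiv ℝ (Xi δ η) (H.symm y) with hLm'
      have hj' := jac_pos hδ hη (hDpos _ hy2) (H.symm y).im
      have hinjL' : Function.Injective Lm' := by
        intro v v' hv
        have key : ∀ w, w1 (v - v') w = 0 := fun w => by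
          have h1 := w1_Xi (η := η) hδ (hDpos _ hy2) (v - v') w
          rw [← hLm', map_sub, hv, sub_self] at h1
          have : w1 (0 : ℂ) (Lm' w) = 0 := by simp [w1]
          rw [this] at h1
          exact (mul_eq_zero.1 h1.symm).resolve_left hj'.ne'
        have k1 := key 1
        have k2 := key Complex.I
        simp [w1] at k1 k2
        exact Complex.ext (by linarith) (by linarith)
      let e' : ℂ ≃L[ℝ] ℂ :=
        (LinearEquiv.ofInjectiveEndo (Lm' : ℂ →ₗ[ℝ] ℂ) hinjL').toContinuousLinearEquiv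
      have he' : (e' : ℂ →L[ℝ] ℂ) = Lm' := by ext1 x; rfl
      have hf' : HasFDerivAt H (e' : ℂ →L[ℝ] ℂ) (H.symm y) := by
        rw [hH, he']; exact (hcd'.differentiableAt (by simp)).hasFDerivAt
      exact H.contDiffAt_symm hy1 hf' (by rw [hH]; exact hcd')
    · filter_upwards [hy] with u hu
      have hu1 := H.right_inv hu.1
      rw [hH] at hu1
      have hm : ∃ q ∈ D, Xi δ η q = u := ⟨_, hu.2, hu1⟩
      exact hinj (Function.invFunOn_mem hm) hu.2 ((Function.invFunOn_eq hm).trans hu1.symm)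
  have himg : IsOpen (Xi δ η '' D) := by
    rw [isOpen_iff_mem_nhds]
    rintro _ ⟨p, hp, rfl⟩
    exact (hloc p hp).mono fun y hy => hy.1
  have hinv : ∀ z ∈ Xi δ η '' D, ContDiffAt ℝ ∞ inv z := by
    rintro _ ⟨p, hp, rfl⟩
    obtain ⟨_, σ, hσ, heq⟩ := (hloc p hp).self_of_nhds
    exact hσ.congr_of_eventuallyEq heq
  have hinvD : ∀ z ∈ Xi δ η '' D, inv z ∈ D ∧ Xi δ η (inv z) = z := fun z hz =>
    ⟨Function.invFunOn_mem hz, Function.invFunOn_eq hz⟩
  let φ : ℂ → ℂ := fun z => TT δ η K a0 c0 (inv z)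
  set U := Xi δ η '' D ∩ Metric.ball 0 L with hUd
  have hcdφ : ∀ z ∈ U, ContDiffAt ℝ ∞ φ z := fun z hz =>
    (contDiffAt_TT hδ hη hK ha0 (hDpos _ (hinvD z hz.1).1)).comp z (hinv z hz.1)
  refine ⟨U, φ, himg.inter Metric.isOpen_ball, ?_, fun z hz => (hcdφ z hz).contDiffWithinAt,
    ?_, ?_, ?_⟩
  · intro z hz
    have hzL : ‖z‖ < L := by
      have : ‖z‖ ≤ R := hz
      linarith
    refine ⟨?_, by simpa using hzL⟩
    obtain ⟨a, b, ha, hab⟩ := xi_surj hδ hη z
    obtain ⟨_, hb⟩ := bounds hδ hη hη1 hδL ha (by rw [hab]; exact hzL)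
    refine ⟨⟨a, b⟩, ⟨?_, ?_⟩, hab⟩
    · show η * δ ^ 2 / (8 * L) < a
      rw [div_lt_iff₀ (by positivity)]
      nlinarith [mul_pos ha hL, mul_nonneg hη.le (sq_nonneg b)]
    · show b ^ 2 < 5 * L / η * a
      rw [div_mul_eq_mul_div, lt_div_iff₀ hη]
      nlinarith [mul_pos ha hL, mul_pos hη (pow_pos hδ 2)]
  · intro z hz z' hz' h
    obtain ⟨hp, hpz⟩ := hinvD z hz.1
    obtain ⟨hq, hqz⟩ := hinvD z' hz'.1
    suffices inv z = inv z' by rw [← hpz, ← hqz, this]
    have h1 := congrArg Complex.re h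
    have h2 := congrArg Complex.im h
    simp only [φ, TT] at h1 h2
    have hmono : StrictMonoOn (GG δ η K a0 c0) (Set.Ioi 0) := by
      refine strictMonoOn_of_deriv_pos (convex_Ioi 0)
        (fun t ht => (hasDerivAt_GG hδ hK ha0 ht).continuousAt.continuousWithinAt) ?_
      intro t ht
      rw [interior_Ioi] at ht
      rw [(hasDerivAt_GG hδ hK ha0 ht).deriv]
      exact gd_pos hδ hη hK ht
    have e1 := hmono.injOn (hDpos _ hp) (hDpos _ hq) h1
    rw [e1] at h2
    have hg := (gd_pos (K := K) hδ hη hK (hDpos _ hq)).ne'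
    field_simp at h2
    exact Complex.ext e1 ((prim_strictMono hδ hη (hDpos _ hq)).injective
      (by simpa using h2))
  · intro z hz v w
    obtain ⟨hp, hpz⟩ := hinvD z hz.1
    have hp0 := hDpos _ hp
    have d1 : DifferentiableAt ℝ inv z := (hinv z hz.1).differentiableAt (by simp)
    have d2 := (contDiffAt_TT (c0 := c0) hδ hη hK ha0 hp0).differentiableAt (by simp)
    have d3 := (contDiffAt_Xi (η := η) hδ hp0).differentiableAt (by simp)
    have e1 : fderiv ℝ φ z = (fderiv ℝ (TT δ η K a0 c0) (inv z)).comp (fderiv ℝ inv z) :=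
      fderiv_comp z d2 d1
    have e2 : (fderiv ℝ (Xi δ η) (inv z)).comp (fderiv ℝ inv z) = ContinuousLinearMap.id ℝ ℂ := by
      rw [← fderiv_comp z d3 d1]
      have : (fun x => Xi δ η (inv x)) =ᶠ[𝓝 z] id := by
        filter_upwards [himg.mem_nhds hz.1] with x hx using (hinvD x hx).2
      rw [Function.comp_def, Filter.EventuallyEq.fderiv_eq (f := id) this, fderiv_id]
    rw [e1, ContinuousLinearMap.comp_apply, ContinuousLinearMap.comp_apply,
      w1_TT hδ hη hK ha0 hp0, ← w1_Xi hδ hp0]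
    have e3 : ∀ u, fderiv ℝ (Xi δ η) (inv z) (fderiv ℝ inv z u) = u := fun u => by
      rw [← ContinuousLinearMap.comp_apply, e2, ContinuousLinearMap.id_apply]
    rw [e3, e3]
  · intro z hz
    obtain ⟨hp, hpz⟩ := hinvD z hz.1
    set p := inv z with hpdef
    have hp0 := hDpos _ hp
    have hzL : ‖z‖ < L := by simpa using hz.2
    have hb := (bounds hδ hη hη1 hδL hp0 (show ‖xi δ η p.re p.im‖ < L by
      rw [show xi δ η p.re p.im = z from hpz]; exact hzL)).1
    rw [show xi δ η p.re p.im = z from hpz] at hb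
    have hcont : ContinuousOn (GG δ η K a0 c0) (Set.Icc a0 p.re) := fun t ht =>
      (hasDerivAt_GG hδ hK ha0 (ha0.trans_le ht.1)).continuousAt.continuousWithinAt
    have hG0 : GG δ η K a0 c0 a0 = c0 := by simp [GG]
    have hGlow : c0 < GG δ η K a0 c0 p.re := by
      refine hG0.symm.trans_lt ?_
      refine strictMonoOn_of_deriv_pos (convex_Icc _ _) hcont ?_
        (Set.left_mem_Icc.2 hp.1.le) (Set.right_mem_Icc.2 hp.1.le) hp.1
      intro t ht
      rw [interior_Icc] at ht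
      rw [(hasDerivAt_GG hδ hK ha0 (ha0.trans ht.1)).deriv]
      exact gd_pos hδ hη hK (ha0.trans ht.1)
    have ha2L : p.re ≤ 2 * L := by linarith
    let W : ℝ → ℝ := fun t => (1 + η / 2) * π * t ^ 2 + 2 * C * √η * √t - GG δ η K a0 c0 t
    have hW : ∀ t, 0 < t → HasDerivAt W ((2 + η) * π * t + C * √η / √t - gd δ η K t) t := by
      intro t ht
      refine ((((hasDerivAt_pow 2 t).const_mul ((1 + η / 2) * π)).add
        ((Real.hasDerivAt_sqrt ht.ne').const_mul (2 * C * √η))).sub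
        (hasDerivAt_GG (η := η) (c0 := c0) hδ hK ha0 ht)).congr_deriv ?_
      have := sqrt_pos.2 ht
      field_simp
      ring
    have hWmono : W a0 ≤ W p.re := by
      refine monotoneOn_of_deriv_nonneg (convex_Icc a0 p.re)
        (fun t ht => (hW t (ha0.trans_le ht.1)).continuousAt.continuousWithinAt)
        (fun t ht => (hW t (by rw [interior_Icc] at ht; exact ha0.trans ht.1)).differentiableAt
          |>.differentiableWithinAt) ?_
        (Set.left_mem_Icc.2 hp.1.le) (Set.right_mem_Icc.2 hp.1.le) hp.1.le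
      intro t ht
      rw [interior_Icc] at ht
      rw [(hW t (ha0.trans ht.1)).deriv, hKd, hCd]
      have := gd_le hδ hη hη1 hδL (a := t) ⟨ht.1, by linarith [ht.2]⟩
      linarith
    have hG : GG δ η K a0 c0 p.re ≤ c0 + (1 + η / 2) * π * p.re ^ 2 + 2 * C * √η * √p.re := by
      simp only [W] at hWmono
      rw [hG0] at hWmono
      have h1 : 0 ≤ (1 + η / 2) * π * a0 ^ 2 := by positivity
      have h2 : 0 ≤ 2 * C * √η * √a0 := by positivity
      linarith
    have hc0 : 0 < c0 := by positivity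
    have hg := gd_pos (K := K) hδ hη hK hp0
    have hMc : p.im ^ 2 < K * p.re := hp.2
    have habs : |p.im| < √(K * p.re) :=
      (Real.lt_sqrt (abs_nonneg _)).2 (by rw [sq_abs]; exact hMc)
    refine ⟨hc0.trans hGlow, ?_, ?_, ?_⟩
    · exact final_bound hL hδ hδL hη hηsq hC hK'd hδε hηε hc0d hε hp0.le hb (norm_nonneg z)
        hzL.le hG
    · show 0 < (_ : ℝ) / _
      refine div_pos ?_ hg
      have := prim_strictMono (a := p.re) hδ hη hp0 (neg_lt_of_abs_lt habs)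
      simp only [prim_neg] at this
      unfold Mc; linarith
    · show (_ : ℝ) / _ < 1
      rw [div_lt_one hg]
      have := prim_strictMono (a := p.re) hδ hη hp0 (lt_of_abs_lt habs)
      unfold gd Mc; linarith

end Vale.Agent.P209.Disc
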