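import Mathlib
import Vale.Agent.P209.Asymp

/-! Any simplex packing of finitely many large balls extends by small balls until the volume is
almost used up. -/

namespace Vale.Agent.P209

variable {n : ℕ}

/-- The sample point of the fine simplex. -/
noncomputable def sampleY (n : ℕ) (η : ℝ) : Fin n → ℝ := fun i => η * ((i : ℝ) + 1) / ((n : ℝ) + 1)

theorem sampleY_mem {η : ℝ} (hη : 0 < η) : sampleY n η ∈ ordSimplex n η := by
  refine ⟨fun i j hij => ?_, fun i => ⟨by unfold sampleY; positivity, ?_⟩⟩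
  · have : (i : ℝ) < j := by exact_mod_cast hij
    unfold sampleY
    gcongr
  · have : (i : ℝ) < n := by exact_mod_cast i.isLt
    unfold sampleY
    rw [div_lt_iff₀ (by positivity)]
    nlinarith

open Classical in
/-- A placed simplex meets few cells of a fine subdivision. -/
theorem cells_meeting {η b : ℝ} (hη : 0 < η) {M : ℕ} (p : Placement n) :
    (Finset.univ.filter fun c : Fin n → Fin M =>
      ¬ Disjoint (Placement.app p '' ordSimplex n b)
        (Placement.app (freudenthal η 0 c) '' ordSimplex n η)).card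
      ≤ (⌈b / η⌉₊ + 3 * n) ^ n := by
  set D := ⌈b / η⌉₊ + 3 * n
  obtain ⟨τ, t⟩ := p
  let K : Fin n → ℤ := fun i => ⌊t i / η⌋ - (3 * (τ i : ℕ) + 1 : ℤ)
  let q : (Fin n → Fin M) → Fin n → ℝ := fun c => Placement.app (freudenthal η 0 c) (sampleY n η)
  let w : (Fin n → Fin M) → Fin n → ℝ := fun c j => q c (τ.symm j) - η * (K (τ.symm j) : ℝ)
  let σ : (Fin n → Fin M) → Equiv.Perm (Fin n) := fun c => (freudenthal η 0 c).1
  let g : (Fin n → Fin M) → Fin n → ℤ := fun c l => (c l : ℕ) - K ((σ c).symm l)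
  have hq : ∀ c i, q c i = η * ((c (σ c i) : ℕ) : ℝ) + sampleY n η (σ c i) := fun c i => by
    simp [q, σ, Placement.app, freudenthal]
  have main : ∀ c, ¬ Disjoint (Placement.app (τ, t) '' ordSimplex n b)
      (Placement.app (freudenthal η 0 c) '' ordSimplex n η) →
      StrictMono (w c) ∧ ∀ j, 0 < w c j ∧ w c j < D * η := by
    intro c hc
    obtain ⟨p, ⟨y, hy, hyp⟩, ⟨z, hz, hzp⟩⟩ := Set.not_disjoint_iff.1 hc
    have key : ∀ j, w c j = y j + η * (3 * (j : ℝ) + 1)
        + (t (τ.symm j) - η * (⌊t (τ.symm j) / η⌋ : ℝ))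
        + (sampleY n η (σ c (τ.symm j)) - z (σ c (τ.symm j))) := by
      intro j
      have e1 := congrFun hyp (τ.symm j)
      have e2 := congrFun hzp (τ.symm j)
      simp only [Placement.app, freudenthal, zero_add] at e1 e2
      rw [τ.apply_symm_apply] at e1
      simp only [w, hq, K, τ.apply_symm_apply]
      simp only [σ, freudenthal] at *
      push_cast
      linarith
    have hfr : ∀ i, 0 ≤ t i - η * (⌊t i / η⌋ : ℝ) ∧ t i - η * (⌊t i / η⌋ : ℝ) < η := by
      intro i
      have h1 := Int.floor_le (t i / η)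
      have h2 := Int.lt_floor_add_one (t i / η)
      rw [le_div_iff₀ hη] at h1
      rw [div_lt_iff₀ hη] at h2
      constructor <;> linarith
    have hd : ∀ l, -η < sampleY n η l - z l ∧ sampleY n η l - z l < η := fun l => by
      have a := (sampleY_mem (n := n) hη).2 l
      have b := hz.2 l
      constructor <;> linarith
    constructor
    · intro i j hij
      have hij' : (i : ℝ) + 1 ≤ j := by exact_mod_cast hij
      rw [key i, key j]
      have := hy.1 hij
      have := mul_le_mul_of_nonneg_left hij' hη.le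
      linarith [hfr (τ.symm i), hfr (τ.symm j), hd (σ c (τ.symm i)), hd (σ c (τ.symm j))]
    · intro j
      rw [key j]
      have hj : (j : ℝ) + 1 ≤ n := by exact_mod_cast j.isLt
      have hb := hy.2 j
      have := mul_le_mul_of_nonneg_left hj hη.le
      have hD : b + 3 * (n : ℝ) * η ≤ D * η := by
        have := mul_le_mul_of_nonneg_right (Nat.le_ceil (b / η)) hη.le
        rw [div_mul_cancel₀ _ hη.ne'] at this
        simp only [D, Nat.cast_add, Nat.cast_mul, Nat.cast_ofNat]
        linarith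
      have : (0 : ℝ) ≤ η * j := by positivity
      constructor <;> linarith [hfr (τ.symm j), hd (σ c (τ.symm j))]
  have hw : ∀ c i, w c (τ i) = η * (g c (σ c i) : ℝ) + sampleY n η (σ c i) := by
    intro c i
    simp only [w, g, τ.symm_apply_apply, hq, (σ c).symm_apply_apply]
    push_cast
    ring
  have hrange : ∀ c, Set.range (w c) = Set.range fun l => η * (g c l : ℝ) + sampleY n η l := by
    intro c
    ext v
    constructor
    · rintro ⟨j, rfl⟩
      exact ⟨σ c (τ.symm j), by simp [← hw]⟩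
    · rintro ⟨l, rfl⟩
      exact ⟨τ ((σ c).symm l), by simp [hw]⟩
  calc _ ≤ (Fintype.piFinset fun _ : Fin n => Finset.Ico (0 : ℤ) (D : ℤ)).card := by
        refine Finset.card_le_card_of_injOn g (fun c hc => ?_) ?_
        · simp only [Finset.coe_filter, Finset.mem_univ, true_and, Set.mem_setOf_eq] at hc
          simp only [Finset.mem_coe, Fintype.mem_piFinset, Finset.mem_Ico]
          intro l
          have h1 := (main c hc).2 (τ ((σ c).symm l))
          rw [hw, (σ c).apply_symm_apply] at h1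
          have h2 := (sampleY_mem (n := n) hη).2 l
          constructor
          · by_contra hneg
            have : ((g c l : ℤ) : ℝ) + 1 ≤ 0 := by exact_mod_cast (by omega : g c l + 1 ≤ 0)
            nlinarith
          · by_contra hge
            have : (D : ℝ) ≤ (g c l : ℝ) := by exact_mod_cast (by omega : (D : ℤ) ≤ g c l)
            nlinarith
        · intro c hc c' hc' hg
          simp only [Finset.coe_filter, Finset.mem_univ, true_and, Set.mem_setOf_eq] at hc hc'
          have hww : w c = w c' :=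
            ((main c hc).1.range_inj (main c' hc').1).1 (by rw [hrange, hrange, hg])
          refine freudenthal_disjoint (D := 0) hη (sampleY_mem hη) (sampleY_mem hη) ?_
          show q c = q c'
          funext i
          have := congrFun hww (τ i)
          simp only [w, τ.symm_apply_apply] at this
          linarith
    _ = D ^ n := by simp

/-- A packing of large simplices extended by small ones. -/
theorem pack_fill (hn : 1 ≤ n) (K : ℕ) {ε : ℝ} (hε : 0 < ε) :
    ∃ δ : ℝ, 0 < δ ∧ ∀ (k : ℕ) (R : ℝ) (r : Fin k → ℝ) (big : Fin k → Prop) [DecidablePred big],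
      0 < R → (∀ i, 0 < r i) → Fintype.card {i // big i} ≤ K → (∀ i, r i ≤ R) →
      PackInto (ordSimplex n R) (fun i : {i // big i} => r i.1) →
      (∀ i, ¬ big i → r i ≤ δ * R) → ∑ i, r i ^ n ≤ (1 - ε) * R ^ n →
      PackInto (ordSimplex n R) r := by
  classical
  set e := min ε 1 with he
  have he0 : 0 < e := lt_min hε one_pos
  obtain ⟨P, hP0, hP⟩ : ∃ P : ℕ, 0 < P ∧ (1 + 1 / (P : ℝ)) ^ n ≤ 1 + e / 4 := by
    have h1 : Filter.Tendsto (fun P : ℕ => (1 + 1 / (P : ℝ)) ^ n) Filter.atTop (nhds 1) := by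
      have := ((tendsto_one_div_atTop_nhds_zero_nat (𝕜 := ℝ)).const_add 1).pow n
      simpa using this
    obtain ⟨P, hP, hP'⟩ := ((h1.eventually_le_const (by linarith : (1 : ℝ) < 1 + e / 4)).and
      (Filter.eventually_gt_atTop 0)).exists
    exact ⟨P, hP', hP⟩
  set A : ℝ := (n : ℝ) + K * (n * (3 * n + 1) * 2 ^ n) + P with hA
  have hA0 : 0 < A := by positivity
  set μ := min (1 / (3 * (n : ℝ) + 1)) (e / (2 * A)) with hμ
  have hμ0 : 0 < μ := lt_min (by positivity) (by positivity)
  have hμA : A * μ ≤ e / 2 := by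
    have : μ ≤ e / (2 * A) := min_le_right _ _
    rw [le_div_iff₀ (by positivity)] at this
    linarith
  refine ⟨μ / P, by positivity, fun k R r big _ hR hr hK hrR hbig hsmall hsum => ?_⟩
  set η := μ * R with hη
  have hη0 : 0 < η := by positivity
  have hn0 : (1 : ℝ) ≤ n := by exact_mod_cast hn
  have hμn : μ * (3 * (n : ℝ) + 1) ≤ 1 := by
    rw [← le_div_iff₀ (by positivity)]; exact min_le_left _ _
  have hηR : (3 * (n : ℝ) + 1) * η ≤ R := by
    rw [hη, ← mul_assoc, mul_comm (3 * (n : ℝ) + 1)]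
    exact mul_le_of_le_one_left hR.le hμn
  have hη1 : η ≤ R := le_trans (le_mul_of_one_le_left hη0.le (by linarith)) hηR
  set M := ⌊R / η⌋₊
  have hM1 : (M : ℝ) * η ≤ R := (le_div_iff₀ hη0).1 (Nat.floor_le (by positivity))
  have hM2 : R < ((M : ℝ) + 1) * η := (div_lt_iff₀ hη0).1 (Nat.lt_floor_add_one _)
  obtain ⟨p, p1, p2⟩ := hbig
  let cell : (Fin n → Fin M) → Set (Fin n → ℝ) := fun c =>
    Placement.app (freudenthal η 0 c) '' ordSimplex n η
  let bigset : {i // big i} → Set (Fin n → ℝ) := fun i =>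
    Placement.app (p i) '' ordSimplex n (r i.1)
  let bad : {i // big i} → Finset (Fin n → Fin M) := fun i =>
    Finset.univ.filter fun c => ¬ Disjoint (bigset i) (cell c)
  let Good := {c : Fin n → Fin M // ∀ i, Disjoint (bigset i) (cell c)}
  let S : Set (Fin n → ℝ) := ⋃ c : Good, cell c.1
  have hcell : ∀ c, cell c ⊆ ordSimplex n R := by
    rintro c _ ⟨y, hy, rfl⟩
    exact ordSimplex_mono (by linarith) (freudenthal_mem hη0 le_rfl c hy)
  have hS : PackInto S (fun _ : Good => η) :=
    ⟨fun c => freudenthal η 0 c.1, fun c => Set.subset_iUnion (fun c : Good => cell c.1) c,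
      fun c c' hne => by
        rw [Set.disjoint_left]
        rintro _ ⟨y, hy, rfl⟩ ⟨z, hz, he⟩
        exact hne (Subtype.ext (freudenthal_disjoint hη0 hy hz he.symm))⟩
  have hcount : (M : ℝ) ^ n - ∑ i : {i // big i}, ((⌈r i.1 / η⌉₊ + 3 * n : ℕ) : ℝ) ^ n
      ≤ Fintype.card Good := by
    have h1 : (Finset.univ.biUnion bad).card
        ≤ ∑ i : {i // big i}, (⌈r i.1 / η⌉₊ + 3 * n) ^ n :=
      Finset.card_biUnion_le.trans (Finset.sum_le_sum fun i _ => cells_meeting hη0 (p i))
    have h2 : Fintype.card Good = (Finset.univ.biUnion bad)ᶜ.card := by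
      refine Fintype.card_of_subtype _ fun c => ?_
      simp [bad]
    rw [Finset.card_compl, Fintype.card_fun, Fintype.card_fin, Fintype.card_fin] at h2
    have h3 : M ^ n ≤ Fintype.card Good + ∑ i : {i // big i}, (⌈r i.1 / η⌉₊ + 3 * n) ^ n := by
      omega
    have h4 : (M : ℝ) ^ n ≤ Fintype.card Good
        + ∑ i : {i // big i}, ((⌈r i.1 / η⌉₊ + 3 * n : ℕ) : ℝ) ^ n := by exact_mod_cast h3
    linarith
  have hR1 : (0 : ℝ) ≤ R ^ (n - 1) := by positivity
  have hRn : R * R ^ (n - 1) = R ^ n := by rw [← pow_succ']; congr 1; omega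
  have k1 : R ^ n - n * (η * R ^ (n - 1)) ≤ ((M : ℝ) * η) ^ n := by
    have h1 := (sub_pow_le (x := R) (y := (M : ℝ) * η) (by positivity) hM1 n).1
    have : (n : ℝ) * (R - M * η) * R ^ (n - 1) ≤ n * η * R ^ (n - 1) := by
      gcongr
      linarith
    linarith
  have k2 : ∀ i : {i // big i}, (((⌈r i.1 / η⌉₊ + 3 * n : ℕ) : ℝ) * η) ^ n
      ≤ r i.1 ^ n + n * (3 * n + 1) * 2 ^ n * (η * R ^ (n - 1)) := by
    intro i
    set x := r i.1 with hx
    have hD : ((⌈x / η⌉₊ + 3 * n : ℕ) : ℝ) * η ≤ x + (3 * n + 1) * η := by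
      have h1 := (Nat.ceil_lt_add_one (div_nonneg (hr i.1).le hη0.le)).le
      have h2 := mul_le_mul_of_nonneg_right h1 hη0.le
      rw [add_mul, div_mul_cancel₀ _ hη0.ne'] at h2
      push_cast
      linarith
    refine (pow_le_pow_left₀ (by positivity) hD n).trans ?_
    have hge : x ≤ x + (3 * (n : ℝ) + 1) * η := le_add_of_nonneg_right (by positivity)
    have h1 := (sub_pow_le (hr i.1).le hge n).1
    rw [add_sub_cancel_left] at h1
    have h2 : (x + (3 * (n : ℝ) + 1) * η) ^ (n - 1) ≤ (2 : ℝ) ^ n * R ^ (n - 1) := by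
      refine (pow_le_pow_left₀ (add_nonneg (hr i.1).le (by positivity))
        (by linarith [hrR i.1] : _ ≤ 2 * R) _).trans ?_
      rw [mul_pow]
      exact mul_le_mul_of_nonneg_right (pow_le_pow_right₀ (by norm_num) (Nat.sub_le _ _)) hR1
    have h3 := mul_le_mul_of_nonneg_left h2
      (by positivity : (0 : ℝ) ≤ n * ((3 * n + 1) * η))
    linarith
  set σb := ∑ i : {i // big i}, r i.1 ^ n
  set σs := ∑ i : {i // ¬ big i}, r i.1 ^ n
  have hsplit : σb + σs = ∑ i, r i ^ n :=
    Fintype.sum_subtype_add_sum_subtype big fun i => r i ^ n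
  have hσb : 0 ≤ σb := Finset.sum_nonneg fun i _ => pow_nonneg (hr _).le _
  have hσs : 0 ≤ σs := Finset.sum_nonneg fun i _ => pow_nonneg (hr _).le _
  set Q := η * R ^ (n - 1) with hQ
  have hQ0 : 0 ≤ Q := by positivity
  have k3 : ∑ i : {i // big i}, (((⌈r i.1 / η⌉₊ + 3 * n : ℕ) : ℝ) * η) ^ n
      ≤ σb + K * (n * (3 * n + 1) * 2 ^ n * Q) := by
    refine (Finset.sum_le_sum fun i _ => k2 i).trans ?_
    rw [Finset.sum_add_distrib, Finset.sum_const, Finset.card_univ, nsmul_eq_mul]
    gcongr
  have k4 : η ^ n ≤ Q := by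
    calc η ^ n = η * η ^ (n - 1) := by rw [← pow_succ']; congr 1; omega
      _ ≤ η * R ^ (n - 1) := by gcongr
  have hfit : (1 + 1 / (P : ℝ)) ^ n * σs + P * η ^ n ≤ Fintype.card Good * η ^ n := by
    have h1 := mul_le_mul_of_nonneg_right hcount (pow_nonneg hη0.le n)
    rw [sub_mul, ← mul_pow, Finset.sum_mul] at h1
    simp only [← mul_pow] at h1
    have h2 := mul_le_mul_of_nonneg_right hP hσs
    have hRn0 : 0 ≤ R ^ n := by positivity
    have hA2 : A * Q ≤ e / 2 * R ^ n := by
      rw [hQ, hη, mul_assoc, hRn, ← mul_assoc]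
      exact mul_le_mul_of_nonneg_right hμA hRn0
    have h6 : σb + σs ≤ (1 - e) * R ^ n := hsplit ▸ hsum.trans
      (mul_le_mul_of_nonneg_right (by linarith [min_le_left ε 1]) hRn0)
    have h7 : e / 4 * σs ≤ e / 4 * R ^ n := by
      refine mul_le_mul_of_nonneg_left ?_ (by positivity)
      have : 0 ≤ e * R ^ n := by positivity
      linarith
    have h8 : (P : ℝ) * η ^ n ≤ P * Q := mul_le_mul_of_nonneg_left k4 (by positivity)
    have h9 : A * Q = n * Q + K * (n * (3 * n + 1) * 2 ^ n * Q) + P * Q := by rw [hA]; ring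
    have : 0 ≤ e / 4 * R ^ n := by positivity
    linarith
  obtain ⟨d, d1, d2⟩ := pack_small hP0 hη0 hS (fun i : {i // ¬ big i} => r i.1)
    (fun i => ⟨hr _, (hsmall i.1 i.2).trans (le_of_eq (by rw [hη]; ring))⟩) hfit
  refine ⟨fun i => if hi : big i then p ⟨i, hi⟩ else d ⟨i, hi⟩, fun i => ?_, fun i j hij => ?_⟩
  · by_cases hi : big i
    · simpa only [dif_pos hi] using p1 ⟨i, hi⟩
    · simp only [dif_neg hi]
      exact (d1 ⟨i, hi⟩).trans (Set.iUnion_subset fun c => hcell c.1)
  · have mix : ∀ a b (ha : big a) (hb : ¬ big b),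
        Disjoint (Placement.app (p ⟨a, ha⟩) '' ordSimplex n (r a))
          (Placement.app (d ⟨b, hb⟩) '' ordSimplex n (r b)) := fun a b ha hb =>
      Set.disjoint_of_subset_right (d1 ⟨b, hb⟩)
        (Set.disjoint_iUnion_right.2 fun c => c.2 ⟨a, ha⟩)
    by_cases hi : big i <;> by_cases hj : big j
    · simp only [dif_pos hi, dif_pos hj]
      exact p2 _ _ fun h => hij (congrArg Subtype.val h)
    · simp only [dif_pos hi, dif_neg hj]
      exact mix i j hi hj
    · simp only [dif_neg hi, dif_pos hj]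
      exact (mix j i hj hi).symm
    · simp only [dif_neg hi, dif_neg hj]
      exact d2 _ _ fun h => hij (congrArg Subtype.val h)

/-- Up to `2^n` simplices with the pair condition. -/
theorem pack_pairs {R : ℝ} (hn : 1 ≤ n) (hR : 0 < R) {ι : Type*} [Fintype ι] (b : ι → ℝ)
    (hcard : Fintype.card ι ≤ 2 ^ n) (hb : ∀ i, 0 < b i) (hbR : ∀ i, b i ≤ R)
    (hpair : ∀ i j, i ≠ j → b i + b j ≤ R) : PackInto (ordSimplex n R) b := by
  obtain ⟨k, ⟨e⟩⟩ : ∃ k, Nonempty (ι ≃ Fin k) := ⟨_, ⟨Fintype.equivFin ι⟩⟩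
  suffices H : PackInto (ordSimplex n R) (b ∘ e.symm) by
    simpa [Function.comp_def] using H.reindex e.toEmbedding
  have hk : k ≤ 2 ^ n := by
    simpa using (Fintype.card_congr e).symm.trans_le hcard
  set c := b ∘ e.symm
  rcases Nat.eq_zero_or_pos k with h0 | h0
  · subst h0
    exact ⟨fun i => i.elim0, fun i => i.elim0, fun i => i.elim0⟩
  have : Nonempty (Fin k) := ⟨⟨0, h0⟩⟩
  obtain ⟨i₀, hi₀⟩ := Finite.exists_max c
  set h := min (R / 2) (R - c i₀) with hh
  rcases eq_or_lt_of_le (hbR (e.symm i₀)) with hEq | hlt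
  · have hone : ∀ i, i = i₀ := by
      intro i
      by_contra hi
      have := hpair (e.symm i) (e.symm i₀) (fun h => hi (e.symm.injective h))
      have := hb (e.symm i)
      linarith
    refine ⟨fun _ => (1, 0), fun i => ?_, fun i j hij => absurd ((hone i).trans (hone j).symm) hij⟩
    rintro _ ⟨y, hy, rfl⟩
    have : Placement.app ((1, 0) : Placement n) y = y := by funext l; simp [Placement.app]
    rw [this]
    exact ordSimplex_mono (hbR _) hy
  have hlt' : c i₀ < R := hlt
  have hh0 : 0 < h := lt_min (by linarith) (by linarith)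
  refine pack_count (m := 2) (l := 1) (by norm_num) hh0
    (by push_cast; linarith [min_le_left (R / 2) (R - c i₀)]) c i₀
    (by push_cast; linarith [min_le_right (R / 2) (R - c i₀)]) (by rw [one_pow]; omega)
    fun i hi => le_min ?_ ?_
  · have h1 := hpair (e.symm i) (e.symm i₀) (fun h => hi (e.symm.injective h))
    have h2 : c i ≤ c i₀ := hi₀ i
    simp only [c, Function.comp_apply] at h2 ⊢
    linarith
  · have h1 := hpair (e.symm i) (e.symm i₀) (fun h => hi (e.symm.injective h))
    simp only [c, Function.comp_apply]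
    linarith

end Vale.Agent.P209
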