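import Mathlib
import Vale.Agent.P209.Defs
import Vale.Agent.P209.Disc
import Vale.Agent.P209.Cells

/-! From packings of simplices to symplectic packings of balls. -/

namespace Vale.Agent.P209

open Real Matrix
open scoped ContDiff

variable {n : ℕ}

def mv (M : Matrix (Fin n) (Fin n) ℤ) (u : Fin n → ℝ) : Fin n → ℝ :=
  (M.map (fun z : ℤ => (z : ℝ))) *ᵥ u

theorem mv_mul (M N : Matrix (Fin n) (Fin n) ℤ) (u : Fin n → ℝ) :
    mv (M * N) u = mv M (mv N u) := by
  unfold mv
  rw [Matrix.mulVec_mulVec, ← Matrix.map_mul_intCast]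

theorem mv_one (u : Fin n → ℝ) : mv (1 : Matrix (Fin n) (Fin n) ℤ) u = u := by
  simp [mv]

theorem mv_add (M : Matrix (Fin n) (Fin n) ℤ) (u w : Fin n → ℝ) :
    mv M (u + w) = mv M u + mv M w := Matrix.mulVec_add _ _ _

theorem mv_sub (M : Matrix (Fin n) (Fin n) ℤ) (u w : Fin n → ℝ) :
    mv M (u - w) = mv M u - mv M w := Matrix.mulVec_sub _ _ _

theorem mv_smul (M : Matrix (Fin n) (Fin n) ℤ) (c : ℝ) (u : Fin n → ℝ) :
    mv M (c • u) = c • mv M u := Matrix.mulVec_smul _ _ _

theorem mv_int (M : Matrix (Fin n) (Fin n) ℤ) {u : Fin n → ℝ}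
    (hu : ∀ i, ∃ z : ℤ, u i = z) (i : Fin n) : ∃ z : ℤ, mv M u i = z := by
  choose z hz using hu
  exact ⟨∑ j, M i j * z j, by simp [mv, Matrix.mulVec, dotProduct, hz]⟩

theorem mv_pair (M : Matrix (Fin n) (Fin n) ℤ) (u w : Fin n → ℝ) :
    mv M u ⬝ᵥ w = u ⬝ᵥ mv Mᵀ w := by
  unfold mv
  rw [Matrix.transpose_map, Matrix.mulVec_transpose, dotProduct_comm,
    Matrix.dotProduct_mulVec, dotProduct_comm]

/-- the matrix of partial sums -/
def sumMat (n : ℕ) : Matrix (Fin n) (Fin n) ℤ := Matrix.of fun i j => if j ≤ i then 1 else 0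

theorem det_sumMat (n : ℕ) : (sumMat n).det = 1 := by
  rw [Matrix.det_of_isLowerTriangular _ (fun i j h => by
    simp only [sumMat, Matrix.of_apply]
    rw [if_neg]
    exact not_le.2 (show i < j from h))]
  simp [sumMat]

noncomputable def difMat (n : ℕ) : Matrix (Fin n) (Fin n) ℤ := (sumMat n)⁻¹

theorem sum_dif (n : ℕ) : sumMat n * difMat n = 1 :=
  Matrix.mul_nonsing_inv _ (by rw [det_sumMat]; exact isUnit_one)

theorem dif_sum (n : ℕ) : difMat n * sumMat n = 1 :=
  Matrix.nonsing_inv_mul _ (by rw [det_sumMat]; exact isUnit_one)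

theorem mv_sumMat (u : Fin n → ℝ) (i : Fin n) :
    mv (sumMat n) u i = ∑ j ∈ Finset.Iic i, u j := by
  simp only [mv, sumMat, Matrix.mulVec, dotProduct, Matrix.map_apply, Matrix.of_apply]
  rw [← Finset.sum_subset (Finset.subset_univ (Finset.Iic i))]
  · refine Finset.sum_congr rfl fun j hj => ?_
    rw [if_pos (Finset.mem_Iic.1 hj)]
    simp
  · intro j _ hj
    rw [if_neg (fun h => hj (Finset.mem_Iic.2 h))]
    simp

theorem sum_mem_ordSimplex {x : Fin n → ℝ} {t : ℝ} (hx : ∀ i, 0 < x i) (ht : ∑ i, x i < t) :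
    mv (sumMat n) x ∈ ordSimplex n t := by
  refine ⟨fun i j hij => ?_, fun i => ⟨?_, ?_⟩⟩
  · rw [mv_sumMat, mv_sumMat]
    refine Finset.sum_lt_sum_of_subset (Finset.Iic_subset_Iic.2 hij.le) (i := j)
      (Finset.mem_Iic.2 le_rfl) (fun h => absurd (Finset.mem_Iic.1 h) (not_le.2 hij)) (hx j)
      (fun k _ _ => (hx k).le)
  · rw [mv_sumMat]
    exact Finset.sum_pos (fun j _ => hx j) ⟨i, Finset.mem_Iic.2 le_rfl⟩
  · rw [mv_sumMat]
    exact lt_of_le_of_lt (Finset.sum_le_sum_of_subset_of_nonneg (Finset.subset_univ _)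
      (fun k _ _ => (hx k).le)) ht

theorem dif_pos_sum_lt (hn : 1 ≤ n) {y : Fin n → ℝ} {t : ℝ} (hy : y ∈ ordSimplex n t) :
    (∀ i, 0 < mv (difMat n) y i) ∧ ∑ i, mv (difMat n) y i < t := by
  set x := mv (difMat n) y with hx
  have hy' : ∀ i, ∑ j ∈ Finset.Iic i, x j = y i := fun i => by
    rw [← mv_sumMat, hx, ← mv_mul, sum_dif, mv_one]
  refine ⟨fun i => ?_, ?_⟩
  · rcases Nat.eq_zero_or_pos (i : ℕ) with h0 | h0
    · have : Finset.Iic i = {i} := by
        ext j; simp only [Finset.mem_Iic, Finset.mem_singleton, Fin.le_def, Fin.ext_iff]; omega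
      have := this ▸ hy' i
      rw [Finset.sum_singleton] at this
      rw [this]; exact (hy.2 i).1
    · let p : Fin n := ⟨(i : ℕ) - 1, by omega⟩
      have e : Finset.Iic i = insert i (Finset.Iic p) := by
        ext j
        simp only [Finset.mem_Iic, Finset.mem_insert, Fin.le_def, Fin.ext_iff, p]
        omega
      have h1 := hy' i
      rw [e, Finset.sum_insert (by simp only [Finset.mem_Iic, Fin.le_def, p]; omega), hy' p] at h1
      have := hy.1 (show p < i by rw [Fin.lt_def]; simp only [p]; omega)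
      linarith
  · let l : Fin n := ⟨n - 1, by omega⟩
    have : Finset.Iic l = Finset.univ := by
      ext j; simp only [Finset.mem_Iic, Fin.le_def, Finset.mem_univ, iff_true, l]; omega
    rw [← this, hy' l]
    exact (hy.2 l).2

noncomputable def actA (σ : Equiv.Perm (Fin n)) (u : Fin n → ℝ) : Fin n → ℝ :=
  mv (difMat n) (mv (sumMat n) u ∘ σ)

noncomputable def actB (σ : Equiv.Perm (Fin n)) (w : Fin n → ℝ) : Fin n → ℝ :=
  mv (sumMat n)ᵀ (mv (difMat n)ᵀ w ∘ σ)

theorem pair_AB (σ : Equiv.Perm (Fin n)) (u w : Fin n → ℝ) :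
    actA σ u ⬝ᵥ actB σ w = u ⬝ᵥ w := by
  rw [actA, actB, ← mv_pair, ← mv_mul, sum_dif, mv_one]
  have e : (mv (sumMat n) u ∘ σ) ⬝ᵥ (mv (difMat n)ᵀ w ∘ σ)
      = mv (sumMat n) u ⬝ᵥ mv (difMat n)ᵀ w :=
    Equiv.sum_comp σ (fun i => mv (sumMat n) u i * mv (difMat n)ᵀ w i)
  rw [e, mv_pair, ← mv_mul, ← Matrix.transpose_mul, dif_sum, Matrix.transpose_one, mv_one]

noncomputable def affLin (σ : Equiv.Perm (Fin n)) : (Fin n → ℂ) →ₗ[ℝ] (Fin n → ℂ) where
  toFun p := fun i => ⟨actA σ (fun j => (p j).re) i, actB σ (fun j => (p j).im) i⟩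
  map_add' p q := by
    funext i
    apply Complex.ext
    · show actA σ (fun j => (p j + q j).re) i = _
      simp only [Complex.add_re]
      show actA σ ((fun j => (p j).re) + fun j => (q j).re) i = _
      simp only [actA, mv_add, Pi.add_comp]
      simp
    · show actB σ (fun j => (p j + q j).im) i = _
      simp only [Complex.add_im]
      show actB σ ((fun j => (p j).im) + fun j => (q j).im) i = _
      simp only [actB, mv_add, Pi.add_comp]
      simp
  map_smul' c p := by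
    funext i
    apply Complex.ext
    · show actA σ (fun j => (c • p j).re) i = _
      simp only [Complex.smul_re]
      show actA σ (c • fun j => (p j).re) i = _
      simp only [actA, mv_smul, Pi.smul_comp]
      simp
    · show actB σ (fun j => (c • p j).im) i = _
      simp only [Complex.smul_im]
      show actB σ (c • fun j => (p j).im) i = _
      simp only [actB, mv_smul, Pi.smul_comp]
      simp

noncomputable def shift (v : Fin n → ℝ) : Fin n → ℂ := fun i => (mv (difMat n) v i : ℂ)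

noncomputable def affMap (c : Placement n) (p : Fin n → ℂ) : Fin n → ℂ :=
  shift c.2 + affLin c.1 p

theorem affMap_re (c : Placement n) (p : Fin n → ℂ) :
    (fun i => (affMap c p i).re)
      = mv (difMat n) (Placement.app c (mv (sumMat n) fun j => (p j).re)) := by
  funext i
  have : Placement.app c (mv (sumMat n) fun j => (p j).re)
      = c.2 + mv (sumMat n) (fun j => (p j).re) ∘ c.1 := rfl
  rw [this, mv_add]
  simp [affMap, shift, affLin, actA]

theorem omega0_eq (v w : Fin n → ℂ) : omega0 v w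
    = (fun j => (v j).re) ⬝ᵥ (fun j => (w j).im) - (fun j => (w j).re) ⬝ᵥ (fun j => (v j).im) := by
  rw [omega0, Finset.sum_sub_distrib]
  simp only [dotProduct]
  congr 1
  exact Finset.sum_congr rfl fun j _ => mul_comm _ _

theorem omega0_affLin (σ : Equiv.Perm (Fin n)) (v w : Fin n → ℂ) :
    omega0 (affLin σ v) (affLin σ w) = omega0 v w := by
  rw [omega0_eq, omega0_eq]
  exact congrArg₂ (· - ·) (pair_AB σ _ _) (pair_AB σ _ _)

/-- `(I, θ) ↦ √(I/π) e^{2πiθ}` -/
noncomputable def polMap (p : ℂ) : ℂ :=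
  ⟨√(p.re / π) * cos (2 * π * p.im), √(p.re / π) * sin (2 * π * p.im)⟩

theorem polMap_norm {p : ℂ} (hp : 0 ≤ p.re) : π * ‖polMap p‖ ^ 2 = p.re := by
  rw [Complex.sq_norm, Complex.normSq_apply]
  simp only [polMap]
  have h := sq_sqrt (div_nonneg hp pi_pos.le)
  calc π * (√(p.re / π) * cos (2 * π * p.im) * (√(p.re / π) * cos (2 * π * p.im))
        + √(p.re / π) * sin (2 * π * p.im) * (√(p.re / π) * sin (2 * π * p.im)))
      = π * (√(p.re / π) ^ 2 * (cos (2 * π * p.im) ^ 2 + sin (2 * π * p.im) ^ 2)) := by ring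
    _ = p.re := by rw [cos_sq_add_sin_sq, h]; field_simp

theorem contDiffAt_polMap {p : ℂ} (hp : 0 < p.re) : ContDiffAt ℝ ∞ polMap p := by
  have hre : ContDiffAt ℝ ∞ (fun q : ℂ => q.re) p := Complex.reCLM.contDiff.contDiffAt
  have him : ContDiffAt ℝ ∞ (fun q : ℂ => q.im) p := Complex.imCLM.contDiff.contDiffAt
  have hs : ContDiffAt ℝ ∞ (fun q : ℂ => √(q.re / π)) p :=
    ContDiffAt.sqrt (hre.div_const π) (by positivity)
  have : polMap = fun q : ℂ => Complex.equivRealProdCLM.symm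
      (√(q.re / π) * cos (2 * π * q.im), √(q.re / π) * sin (2 * π * q.im)) := by
    funext q; apply Complex.ext <;> simp [polMap]
  rw [this]
  exact Complex.equivRealProdCLM.symm.contDiff.contDiffAt.comp p
    (ContDiffAt.prodMk (hs.mul (by fun_prop)) (hs.mul (by fun_prop)))

theorem w1_polMap {p : ℂ} (hp : 0 < p.re) (v w : ℂ) :
    Disc.w1 (fderiv ℝ polMap p v) (fderiv ℝ polMap p w) = Disc.w1 v w := by
  have hq : p.re / π ≠ 0 := by positivity
  have hs := ((hasDerivAt_id p.re).div_const π).sqrt hq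
  have harg : HasDerivAt (fun t : ℝ => 2 * π * t) (2 * π) p.im := by
    simpa using (hasDerivAt_id p.im).const_mul (2 * π)
  rw [Disc.w1_fderiv ((contDiffAt_polMap hp).differentiableAt (by simp))
    (u1 := _) (u2 := _) (v1 := _) (v2 := _) (hs.mul_const (cos (2 * π * p.im)))
    (hs.mul_const (sin (2 * π * p.im))) (harg.cos.const_mul (√(p.re / π)))
    (harg.sin.const_mul (√(p.re / π)))]
  refine mul_left_eq_self₀.2 (Or.inl ?_)
  have hne : √(p.re / π) ≠ 0 := (sqrt_pos.2 (by positivity)).ne'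
  have := cos_sq_add_sin_sq (2 * π * p.im)
  simp only [id]
  field_simp
  rw [show π * 2 * p.im = 2 * π * p.im by ring]
  linear_combination this

theorem polMap_eq {p q : ℂ} (hp : 0 < p.re) (hq : 0 < q.re) (h : polMap p = polMap q) :
    p.re = q.re ∧ ∃ z : ℤ, p.im - q.im = z := by
  have h1 : p.re = q.re := by rw [← polMap_norm hp.le, ← polMap_norm hq.le, h]
  refine ⟨h1, ?_⟩
  have hs : √(q.re / π) ≠ 0 := (sqrt_pos.2 (by positivity)).ne'
  have hc := congrArg Complex.re h
  have hsn := congrArg Complex.im h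
  simp only [polMap, h1] at hc hsn
  have hc' := mul_left_cancel₀ hs hc
  have hs' := mul_left_cancel₀ hs hsn
  obtain ⟨z, hz⟩ := Real.Angle.angle_eq_iff_two_pi_dvd_sub.1
    (Real.Angle.cos_sin_inj hc' hs')
  refine ⟨z, ?_⟩
  have hpi : π ≠ 0 := pi_ne_zero
  field_simp at hz
  linarith

theorem omega0_map {g : ℂ → ℂ} {p : Fin n → ℂ} (hg : ∀ j, DifferentiableAt ℝ g (p j))
    (hw : ∀ j v w, Disc.w1 (fderiv ℝ g (p j) v) (fderiv ℝ g (p j) w) = Disc.w1 v w)
    (v w : Fin n → ℂ) :
    omega0 (fderiv ℝ (fun q : Fin n → ℂ => fun j => g (q j)) p v)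
      (fderiv ℝ (fun q : Fin n → ℂ => fun j => g (q j)) p w) = omega0 v w := by
  have h : HasFDerivAt (fun q : Fin n → ℂ => fun j => g (q j))
      (ContinuousLinearMap.pi fun j => (fderiv ℝ g (p j)).comp
        (ContinuousLinearMap.proj j)) p :=
    hasFDerivAt_pi.2 fun j => HasFDerivAt.comp (g := g) (f := fun q : Fin n → ℂ => q j) p
      (hg j).hasFDerivAt (hasFDerivAt_apply j p)
  rw [h.fderiv]
  exact Finset.sum_congr rfl fun j _ => hw j (v j) (w j)

theorem toric_pack {k : ℕ} (hn : 1 ≤ n) (r r' : Fin k → ℝ) (R : ℝ)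
    (hr : ∀ i, 0 < r i ∧ r i < r' i) (h : PackInto (ordSimplex n R) r') :
    SympBallPacking n r R := by
  obtain ⟨c, c1, c2⟩ := h
  have hn' : (0 : ℝ) < n := by exact_mod_cast hn
  have key : ∀ i, ∃ (U : Set (Fin n → ℂ)) (Φ : (Fin n → ℂ) → (Fin n → ℂ)),
      IsOpen U ∧ closedCapBall n (r i) ⊆ U ∧ ContDiffOn ℝ ∞ Φ U ∧ Set.InjOn Φ U ∧
      (∀ z ∈ U, ∀ v w, omega0 (fderiv ℝ Φ z v) (fderiv ℝ Φ z w) = omega0 v w) ∧
      ∀ z ∈ U, (∀ j, 0 < (Φ z j).re ∧ 0 < (Φ z j).im ∧ (Φ z j).im < 1) ∧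
        ∑ j, (Φ z j).re < r' i := by
    intro i
    set d := r' i - r i
    have hd : 0 < d := by linarith [(hr i).2]
    obtain ⟨U, φ, hU, hsub, hφ, hinj, hw, hb⟩ :=
      Disc.disc_map (√(r i / π)) (sqrt_nonneg _) (ε := d / (2 * n)) (by positivity)
    refine ⟨{z | ∀ j, z j ∈ U} ∩ openCapBall n (r i + d / 2), fun z j => φ (z j),
      IsOpen.inter ?_ ?_, ?_, ?_, ?_, ?_, ?_⟩
    · have : {z : Fin n → ℂ | ∀ j, z j ∈ U} = ⋂ j, (fun z : Fin n → ℂ => z j) ⁻¹' U := by
        ext z; simp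
      rw [this]
      exact isOpen_iInter_of_finite fun j => hU.preimage (continuous_apply j)
    · exact isOpen_lt (continuous_const.mul (continuous_finsetSum _ fun j _ =>
        (continuous_apply j).norm.pow 2)) continuous_const
    · intro z hz
      have hz' : π * ∑ j, ‖z j‖ ^ 2 ≤ r i := hz
      refine ⟨fun j => hsub ?_, ?_⟩
      · have h1 : ‖z j‖ ^ 2 ≤ r i / π := by
          rw [le_div_iff₀ pi_pos]
          have := Finset.single_le_sum (fun j _ => sq_nonneg ‖z j‖) (Finset.mem_univ j)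
          nlinarith [pi_pos]
        exact Real.le_sqrt_of_sq_le h1
      · show π * ∑ j, ‖z j‖ ^ 2 < r i + d / 2
        linarith
    · exact fun z hz => (contDiffAt_pi.2 fun j => ((hφ.contDiffAt (hU.mem_nhds (hz.1 j))).comp z
        (contDiff_apply ℝ ℂ j).contDiffAt)).contDiffWithinAt
    · intro z hz z' hz' he
      funext j
      exact hinj (hz.1 j) (hz'.1 j) (congrFun he j)
    · intro z hz v w
      exact omega0_map
        (fun j => (hφ.contDiffAt (hU.mem_nhds (hz.1 j))).differentiableAt (by simp))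
        (fun j => hw _ (hz.1 j)) v w
    · intro z hz
      refine ⟨fun j => ⟨(hb _ (hz.1 j)).1, (hb _ (hz.1 j)).2.2⟩, ?_⟩
      have hz2 : π * ∑ j, ‖z j‖ ^ 2 < r i + d / 2 := hz.2
      calc ∑ j, (φ (z j)).re ≤ ∑ j, (π * ‖z j‖ ^ 2 + d / (2 * n)) :=
            Finset.sum_le_sum fun j _ => (hb _ (hz.1 j)).2.1.le
        _ = π * ∑ j, ‖z j‖ ^ 2 + d / 2 := by
            rw [Finset.sum_add_distrib, ← Finset.mul_sum, Finset.sum_const, Finset.card_univ,
              Fintype.card_fin, nsmul_eq_mul]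
            field_simp
        _ < r' i := by linarith [show r' i = r i + d from by simp [d]]
  choose U Φ hU hsub hcd hinj hsymp hrange using key
  let f : Fin k → (Fin n → ℂ) → (Fin n → ℂ) := fun i z => fun j => polMap (affMap (c i) (Φ i z) j)
  have hy : ∀ i, ∀ z ∈ U i, mv (sumMat n) (fun j => (Φ i z j).re) ∈ ordSimplex n (r' i) :=
    fun i z hz => sum_mem_ordSimplex (fun j => ((hrange i z hz).1 j).1) (hrange i z hz).2
  have hy' : ∀ i, ∀ z ∈ U i, (∀ j, 0 < (affMap (c i) (Φ i z) j).re) ∧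
      ∑ j, (affMap (c i) (Φ i z) j).re < R := by
    intro i z hz
    have := dif_pos_sum_lt hn (c1 i ⟨_, hy i z hz, rfl⟩)
    rw [← affMap_re] at this
    exact this
  refine ⟨f, fun i => ⟨⟨U i, hU i, hsub i, ?_, ?_, ?_⟩, ?_⟩, ?_⟩
  · intro z hz
    refine (contDiffAt_pi.2 fun j => ?_).contDiffWithinAt
    have h1 : ContDiffAt ℝ ∞ (fun z => affMap (c i) (Φ i z)) z := by
      have hL : ContDiff ℝ ∞ (affMap (c i)) :=
        contDiff_const.add (LinearMap.toContinuousLinearMap (affLin (c i).1)).contDiff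
      exact hL.contDiffAt.comp z ((hcd i).contDiffAt ((hU i).mem_nhds hz))
    exact (contDiffAt_polMap ((hy' i z hz).1 j)).comp z (contDiffAt_pi.1 h1 j)
  · intro z hz z' hz' he
    apply hinj i hz hz'
    have hp := fun j => polMap_eq ((hy' i z hz).1 j) ((hy' i z' hz').1 j) (congrFun he j)
    have hre : (fun j => (affMap (c i) (Φ i z) j).re) = fun j => (affMap (c i) (Φ i z') j).re :=
      funext fun j => (hp j).1
    rw [affMap_re, affMap_re] at hre
    have hre2 := congrArg (mv (sumMat n)) hre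
    rw [← mv_mul, ← mv_mul, sum_dif, mv_one, mv_one] at hre2
    have hre3 := congrArg (mv (difMat n)) (Placement.app_injective _ hre2)
    rw [← mv_mul, ← mv_mul, dif_sum, mv_one, mv_one] at hre3
    set σ := (c i).1
    set q := (fun j => (Φ i z j).im) - fun j => (Φ i z' j).im with hq
    have hB : ∀ j, ∃ m : ℤ, actB σ q j = m := by
      intro j
      obtain ⟨m, hm⟩ := (hp j).2
      refine ⟨m, ?_⟩
      rw [← hm]
      have e : mv (difMat n)ᵀ q ∘ σ = mv (difMat n)ᵀ (fun j => (Φ i z j).im) ∘ σ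
          - mv (difMat n)ᵀ (fun j => (Φ i z' j).im) ∘ σ := by rw [hq, mv_sub]; rfl
      simp only [actB, e, mv_sub, affMap, affLin]
      simp [σ]
    have hback : q = mv (sumMat n)ᵀ ((mv (difMat n)ᵀ (actB σ q)) ∘ σ.symm) := by
      have e1 : mv (difMat n)ᵀ (actB σ q) = mv (difMat n)ᵀ q ∘ σ := by
        rw [actB, ← mv_mul, ← Matrix.transpose_mul, sum_dif, Matrix.transpose_one, mv_one]
      rw [e1, Function.comp_assoc, Equiv.self_comp_symm, Function.comp_id, ← mv_mul,
        ← Matrix.transpose_mul, dif_sum, Matrix.transpose_one, mv_one]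
    funext j
    apply Complex.ext
    · exact congrFun hre3 j
    · obtain ⟨m, hm⟩ := mv_int (sumMat n)ᵀ
        (u := (mv (difMat n)ᵀ (actB σ q)) ∘ σ.symm)
        (fun l => mv_int (difMat n)ᵀ hB (σ.symm l)) j
      rw [← hback] at hm
      obtain ⟨-, a1, a2⟩ := (hrange i z hz).1 j
      obtain ⟨-, b1, b2⟩ := (hrange i z' hz').1 j
      have hm' : (Φ i z j).im - (Φ i z' j).im = m := hm
      have h3 : (m : ℝ) < 1 ∧ (-1 : ℝ) < m := ⟨by linarith, by linarith⟩
      have h4 : m = 0 := by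
        have h5 : m < 1 := by exact_mod_cast h3.1
        have h6 : -1 < m := by exact_mod_cast h3.2
        omega
      rw [h4] at hm'
      simpa [sub_eq_zero] using hm'
  · intro z hz v w
    have dΦ : DifferentiableAt ℝ (Φ i) z :=
      ((hcd i).contDiffAt ((hU i).mem_nhds hz)).differentiableAt (by simp)
    set L := LinearMap.toContinuousLinearMap (affLin (c i).1)
    have dA : HasFDerivAt (affMap (c i)) L (Φ i z) := L.hasFDerivAt.const_add (shift (c i).2)
    have dP : DifferentiableAt ℝ (fun q : Fin n → ℂ => fun j => polMap (q j))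
        (affMap (c i) (Φ i z)) :=
      differentiableAt_pi.2 fun j => ((contDiffAt_polMap ((hy' i z hz).1 j)).differentiableAt
        (by simp)).comp (f := fun q : Fin n → ℂ => q j) (affMap (c i) (Φ i z))
        (differentiableAt_apply j _)
    have h1 := dA.comp z dΦ.hasFDerivAt
    have h2 : HasFDerivAt (f i) ((fderiv ℝ (fun q : Fin n → ℂ => fun j => polMap (q j))
        (affMap (c i) (Φ i z))).comp (L.comp (fderiv ℝ (Φ i) z))) z :=
      HasFDerivAt.comp (g := fun q : Fin n → ℂ => fun j => polMap (q j)) z dP.hasFDerivAt h1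
    rw [h2.fderiv]
    simp only [ContinuousLinearMap.comp_apply]
    rw [omega0_map (fun j => (contDiffAt_polMap ((hy' i z hz).1 j)).differentiableAt (by simp))
      (fun j => w1_polMap ((hy' i z hz).1 j))]
    exact (omega0_affLin _ _ _).trans (hsymp i z hz v w)
  · rintro _ ⟨z, hz, rfl⟩
    show π * ∑ j, ‖polMap (affMap (c i) (Φ i z) j)‖ ^ 2 < R
    rw [Finset.mul_sum, Finset.sum_congr rfl fun j _ =>
      polMap_norm ((hy' i z (hsub i hz)).1 j).le]
    exact (hy' i z (hsub i hz)).2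
  · intro i j hij
    rw [Set.disjoint_left]
    rintro _ ⟨z, hz, rfl⟩ ⟨z', hz', he⟩
    have hre : (fun l => (affMap (c i) (Φ i z) l).re) = fun l => (affMap (c j) (Φ j z') l).re :=
      funext fun l => (polMap_eq ((hy' i z (hsub i hz)).1 l) ((hy' j z' (hsub j hz')).1 l)
        (congrFun he l).symm).1
    rw [affMap_re, affMap_re] at hre
    have hre2 := congrArg (mv (sumMat n)) hre
    rw [← mv_mul, ← mv_mul, sum_dif, mv_one, mv_one] at hre2
    exact Set.disjoint_left.1 (c2 i j hij) ⟨_, hy i z (hsub i hz), rfl⟩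
      ⟨_, hy j z' (hsub j hz'), hre2.symm⟩

end Vale.Agent.P209
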